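import Vale.Agent.P076.H322.ST1

/-! # P076 / H551 : counting from `Dim2`: one `L`-ball, the whole `R`-cube -/

set_option autoImplicit false

open MeasureTheory Complex Set Vale.Agent.P122.C2 Vale.Agent.P122.AN Vale.Agent.P076.NS Vale.Agent.P076.H879
  Vale.Agent.P076.H322
open scoped ENNReal NNReal FourierTransform

namespace Vale.Agent.P076.H551

theorem dist_le_two {p q : E3} {a : ℝ} (ha : 0 ≤ a) (h : ∀ k, |p k - q k| ≤ a) : dist p q ≤ 2 * a := by
  rw [EuclideanSpace.dist_eq]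
  refine Real.sqrt_le_iff.2 ⟨by positivity, ?_⟩
  rw [Fin.sum_univ_three]
  have key : ∀ k, dist (p k) (q k) ^ 2 ≤ a ^ 2 := fun k => by
    rw [Real.dist_eq]
    exact pow_le_pow_left₀ (abs_nonneg _) (h k) 2
  nlinarith [key 0, key 1, key 2, sq_nonneg a]

theorem abs_apply_le (p : E3) (k : Fin 3) : |p k| ≤ ‖p‖ := by
  have := PiLp.norm_apply_le p k
  rwa [Real.norm_eq_abs] at this

/-- **[322.DIM] one `L`-ball** -/
theorem card_lb {K n : ℕ} (hK : 2 ≤ K) (hn : 1 ≤ n) {γ : ℝ} (hγ : 0 < γ) {Y : Finset (Fin 3 → ℤ)} (h : NS.Dim2 K n Y γ)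
    (P : Fin 3 → ℤ) : ((Y.filter fun B => lb K n B = P).card : ℝ) ≤ 4 * γ * (2 ^ (K * n)) ^ 2 := by
  set L : ℝ := 2 ^ (K * n) with hL
  have hL0 : 0 < L := by positivity
  set p : E3 := !₂[(P 0 : ℝ) * L, (P 1 : ℝ) * L, (P 2 : ℝ) * L] with hp
  have hpk : ∀ k, p k = (P k : ℝ) * L := fun k => by
    rw [hp]
    fin_cases k <;> rfl
  have h1 : (2:ℝ) ^ (2 * n) ≤ 2 * L := by
    have : (2:ℝ) ^ (2 * n) ≤ L := pow_le_pow_right₀ (by norm_num) (Nat.mul_le_mul_right n hK)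
    linarith
  have h2 : 2 * L ≤ 2 ^ (2 * K * n) := by
    have e1 : (2:ℝ) ^ (2 * K * n) = L * L := by
      rw [hL, ← pow_add]
      congr 1
      ring
    have e2 : (2:ℝ) ≤ L := by
      have : (2:ℝ) ^ 1 ≤ L := pow_le_pow_right₀ (by norm_num) (by nlinarith)
      linarith
    rw [e1]
    exact mul_le_mul_of_nonneg_right e2 hL0.le
  have h3 := h (2 * L) p h1 h2
  have h4 : (Y.filter fun B => lb K n B = P).card ≤ (Y.filter fun B => dist (cB n B) p ≤ 2 * L).card := by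
    refine Finset.card_le_card fun B hB => ?_
    rw [Finset.mem_filter] at hB ⊢
    refine ⟨hB.1, dist_le_two hL0.le fun k => ?_⟩
    have h5 := lb_near hK B k (n := n)
    rw [hB.2] at h5
    rw [hpk, abs_le]
    constructor <;> linarith [h5.1, h5.2]
  calc ((Y.filter fun B => lb K n B = P).card : ℝ) ≤ ((Y.filter fun B => dist (cB n B) p ≤ 2 * L).card : ℝ) := by
        exact_mod_cast h4
    _ ≤ γ * (2 * L) ^ 2 := h3
    _ = 4 * γ * L ^ 2 := by ring

/-- **[322.DIM] the whole cube** -/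
theorem card_all {K n : ℕ} (hK : 2 ≤ K) (hn : 1 ≤ n) {γ C0 : ℝ} (hγ : 0 < γ) (hC0 : 1 ≤ C0) {Y : Finset (Fin 3 → ℤ)}
    (h : NS.Dim2 K n Y γ) (hB : ∀ B ∈ Y, ‖cB n B‖ ≤ C0 * 2 ^ (2 * K * n)) :
    (Y.card : ℝ) ≤ (4 * C0 + 3) ^ 3 * γ * (2 ^ (K * n)) ^ 4 := by
  set R : ℝ := 2 ^ (2 * K * n) with hR
  have hR0 : 0 < R := by positivity
  have hR1 : (2:ℝ) ^ (2 * n) ≤ R := by
    refine pow_le_pow_right₀ (by norm_num) (Nat.mul_le_mul_right n ?_)
    omega
  -- the cell of a cube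
  let m : (Fin 3 → ℤ) → (Fin 3 → ℤ) := fun B k => ⌊cB n B k / (R / 2)⌋
  let I : Finset (Fin 3 → ℤ) := Fintype.piFinset fun _ : Fin 3 => Finset.Icc ⌊-(2 * C0)⌋ ⌊2 * C0⌋
  have hm : ∀ B ∈ Y, m B ∈ I := by
    intro B hBY
    rw [Fintype.mem_piFinset]
    intro k
    have h1 : |cB n B k| ≤ C0 * R := (abs_apply_le _ k).trans (hB B hBY)
    rw [abs_le] at h1
    rw [Finset.mem_Icc]
    constructor
    · refine Int.floor_le_floor ?_
      rw [le_div_iff₀ (by positivity)]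
      linarith [h1.1]
    · refine Int.floor_le_floor ?_
      rw [div_le_iff₀ (by positivity)]
      linarith [h1.2]
  have hcell : ∀ q : Fin 3 → ℤ, ((Y.filter fun B => m B = q).card : ℝ) ≤ γ * R ^ 2 := by
    intro q
    set p : E3 := !₂[(q 0 : ℝ) * (R / 2), (q 1 : ℝ) * (R / 2), (q 2 : ℝ) * (R / 2)] with hp
    have hpk : ∀ k, p k = (q k : ℝ) * (R / 2) := fun k => by
      rw [hp]
      fin_cases k <;> rfl
    have h4 : (Y.filter fun B => m B = q).card ≤ (Y.filter fun B => dist (cB n B) p ≤ R).card := by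
      refine Finset.card_le_card fun B hB => ?_
      rw [Finset.mem_filter] at hB ⊢
      refine ⟨hB.1, ?_⟩
      have h6 := dist_le_two (p := cB n B) (q := p) (a := R / 2) (by positivity) (fun k => by
        have e : (⌊cB n B k / (R / 2)⌋ : ℤ) = q k := congrFun hB.2 k
        have e1 := Int.floor_le (cB n B k / (R / 2))
        have e2 := Int.lt_floor_add_one (cB n B k / (R / 2))
        rw [e] at e1 e2
        rw [le_div_iff₀ (by positivity)] at e1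
        rw [div_lt_iff₀ (by positivity)] at e2
        rw [hpk, abs_le]
        constructor <;> linarith)
      linarith
    have h3 := h R p hR1 (le_refl _)
    calc ((Y.filter fun B => m B = q).card : ℝ) ≤ ((Y.filter fun B => dist (cB n B) p ≤ R).card : ℝ) := by
          exact_mod_cast h4
      _ ≤ γ * R ^ 2 := h3
  have hI : (I.card : ℝ) ≤ (4 * C0 + 3) ^ 3 := by
    rw [Fintype.card_piFinset_const, Int.card_Icc]
    push_cast
    have e1 : (0:ℤ) ≤ ⌊2 * C0⌋ + 1 - ⌊-(2 * C0)⌋ := by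
      have h1 : ⌊-(2 * C0)⌋ ≤ ⌊2 * C0⌋ := Int.floor_le_floor (by linarith)
      omega
    have e2 : (((⌊2 * C0⌋ + 1 - ⌊-(2 * C0)⌋).toNat : ℕ) : ℝ) ≤ 4 * C0 + 3 := by
      have e3 : (((⌊2 * C0⌋ + 1 - ⌊-(2 * C0)⌋).toNat : ℕ) : ℝ) = ((⌊2 * C0⌋ + 1 - ⌊-(2 * C0)⌋ : ℤ) : ℝ) := by
        exact_mod_cast Int.toNat_of_nonneg e1
      rw [e3]
      push_cast
      linarith [Int.floor_le (2 * C0), Int.lt_floor_add_one (-(2 * C0))]
    exact pow_le_pow_left₀ (Nat.cast_nonneg _) e2 3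
  have e4 : ((2:ℝ) ^ (K * n)) ^ 4 = R ^ 2 := by
    rw [hR, ← pow_mul, ← pow_mul]
    congr 1
    ring
  have e5 : (Y.card : ℝ) = ∑ q ∈ I, ((Y.filter fun B => m B = q).card : ℝ) := by
    exact_mod_cast Finset.card_eq_sum_card_fiberwise hm
  rw [e5, e4]
  calc ∑ q ∈ I, ((Y.filter fun B => m B = q).card : ℝ) ≤ ∑ q ∈ I, γ * R ^ 2 := Finset.sum_le_sum fun q _ => hcell q
    _ = (I.card : ℝ) * (γ * R ^ 2) := by rw [Finset.sum_const, nsmul_eq_mul]
    _ ≤ (4 * C0 + 3) ^ 3 * (γ * R ^ 2) := mul_le_mul_of_nonneg_right hI (by positivity)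
    _ = (4 * C0 + 3) ^ 3 * γ * R ^ 2 := by ring

end Vale.Agent.P076.H551
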