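import Vale.Agent.P122.H466.Gau

/-! # P076 / H551 : a tube through a point is comparable with a node of the lattice ([322.SH]) -/

set_option autoImplicit false

open MeasureTheory Complex Set Vale.Agent.P122.C2 Vale.Agent.P122.AN
open scoped ENNReal NNReal FourierTransform

namespace Vale.Agent.P076.H551

/-- the node of the lattice of tubes of level `K`, direction of the cap `θ`, nearest to the tube through `c` -/
noncomputable def nd (K n : ℕ) (θ : Z2) (c : E3) : Nd :=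
  ⟨θ, fun k => ⌊(hz c k - slp n K θ k * (c 2 - 2 ^ (2 * K * n) * ⌊c 2 / 2 ^ (2 * K * n)⌋)) / 2 ^ (K * n)⌋,
    ⌊c 2 / 2 ^ (2 * K * n)⌋⟩

@[simp] theorem nd_τ (K n : ℕ) (θ : Z2) (c : E3) : (nd K n θ c).τ = θ := rfl

theorem fl {L y : ℝ} (hL : 0 < L) : |y - L * ⌊y / L⌋| ≤ L := by
  have h1 := Int.floor_le (y / L)
  have h2 := Int.lt_floor_add_one (y / L)
  rw [le_div_iff₀ hL] at h1
  rw [div_lt_iff₀ hL] at h2
  rw [abs_le]
  constructor <;> nlinarith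

/-- the base point of the node is within gauge `3` of `c` -/
theorem gau_nd (K n : ℕ) (θ : Z2) (c : E3) :
    gau 0 (2 ^ (K * n)) (2 ^ (K * n)) (2 ^ (2 * K * n)) (slp n K θ) (c - bp n K (nd K n θ c)) ≤ 3 := by
  have hL : (0 : ℝ) < 2 ^ (K * n) := by positivity
  have hR : (0 : ℝ) < 2 ^ (2 * K * n) := by positivity
  have e2 : (c - bp n K (nd K n θ c)) 2 = c 2 - 2 ^ (2 * K * n) * ⌊c 2 / 2 ^ (2 * K * n)⌋ := by
    simp [bp, nd]
  have h2 := fl (y := c 2) hR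
  have h0 := fl (y := c 0 - slp n K θ 0 * (c 2 - 2 ^ (2 * K * n) * ⌊c 2 / 2 ^ (2 * K * n)⌋)) hL
  have h1 := fl (y := c 1 - slp n K θ 1 * (c 2 - 2 ^ (2 * K * n) * ⌊c 2 / 2 ^ (2 * K * n)⌋)) hL
  unfold gau
  have w0 : fw 0 (dv (slp n K θ) (c - bp n K (nd K n θ c))) =
      c 0 - slp n K θ 0 * (c 2 - 2 ^ (2 * K * n) * ⌊c 2 / 2 ^ (2 * K * n)⌋) -
        2 ^ (K * n) * ⌊(c 0 - slp n K θ 0 * (c 2 - 2 ^ (2 * K * n) * ⌊c 2 / 2 ^ (2 * K * n)⌋)) / 2 ^ (K * n)⌋ := by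
    simp [fw, dv, bp, nd, hz]
    ring
  have w1 : fn 0 (dv (slp n K θ) (c - bp n K (nd K n θ c))) =
      c 1 - slp n K θ 1 * (c 2 - 2 ^ (2 * K * n) * ⌊c 2 / 2 ^ (2 * K * n)⌋) -
        2 ^ (K * n) * ⌊(c 1 - slp n K θ 1 * (c 2 - 2 ^ (2 * K * n) * ⌊c 2 / 2 ^ (2 * K * n)⌋)) / 2 ^ (K * n)⌋ := by
    simp [fn, dv, bp, nd, hz]
    ring
  rw [w0, w1, e2]
  have a0 := (div_le_one hL).2 h0
  have a1 := (div_le_one hL).2 h1
  have a2 := (div_le_one hR).2 h2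
  linarith

/-- comparison of the weights at two base points, the gauge of the difference is at most `g` -/
theorem wg_shift (M : ℕ) {θ ρ1 ρ2 ρ3 g : ℝ} (h1 : 0 < ρ1) (h2 : 0 < ρ2) (h3 : 0 < ρ3) {s : Fin 2 → ℝ} {a b : E3}
    (h : gau θ ρ1 ρ2 ρ3 s (a - b) ≤ g) (z : E3) :
    wg M θ ρ1 ρ2 ρ3 s (z - a) ≤ ENNReal.ofReal ((1 + g) ^ M) * wg M θ ρ1 ρ2 ρ3 s (z - b) := by
  have hg : 0 ≤ g := (Vale.Agent.P122.AN.gau_nonneg h1 h2 h3 _).trans h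
  have ha := Vale.Agent.P122.AN.gau_nonneg (θ := θ) (s := s) h1 h2 h3 (z - a)
  have hb := Vale.Agent.P122.AN.gau_nonneg (θ := θ) (s := s) h1 h2 h3 (z - b)
  have h4 : gau θ ρ1 ρ2 ρ3 s (z - b) ≤ gau θ ρ1 ρ2 ρ3 s (z - a) + gau θ ρ1 ρ2 ρ3 s (a - b) := by
    have := Vale.Agent.P122.AN.gau_add (θ := θ) (s := s) h1 h2 h3 (z - a) (a - b)
    rwa [sub_add_sub_cancel] at this
  have h5 : 1 + gau θ ρ1 ρ2 ρ3 s (z - b) ≤ (1 + g) * (1 + gau θ ρ1 ρ2 ρ3 s (z - a)) := by nlinarith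
  unfold wg
  rw [← ENNReal.ofReal_mul (by positivity)]
  refine ENNReal.ofReal_le_ofReal ?_
  rw [inv_eq_one_div, ← div_eq_mul_inv, div_le_div_iff₀ (by positivity) (by positivity), one_mul, ← mul_pow]
  gcongr

/-- the weight of the tube through `c` and the weight of the node are comparable -/
theorem wg_le_wN (M K n : ℕ) (θ : Z2) (c z : E3) :
    wg M 0 (2 ^ (K * n)) (2 ^ (K * n)) (2 ^ (2 * K * n)) (slp n K θ) (z - c) ≤
      ENNReal.ofReal (4 ^ M) * wN M n K (nd K n θ c) z := by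
  have h := wg_shift M (θ := 0) (by positivity : (0 : ℝ) < 2 ^ (K * n)) (by positivity : (0 : ℝ) < 2 ^ (K * n))
    (by positivity : (0 : ℝ) < 2 ^ (2 * K * n)) (gau_nd K n θ c) z
  norm_num at h ⊢
  exact h

theorem wN_le_wg (M K n : ℕ) (θ : Z2) (c z : E3) :
    wN M n K (nd K n θ c) z ≤
      ENNReal.ofReal (4 ^ M) * wg M 0 (2 ^ (K * n)) (2 ^ (K * n)) (2 ^ (2 * K * n)) (slp n K θ) (z - c) := by
  have h0 : gau 0 (2 ^ (K * n)) (2 ^ (K * n)) (2 ^ (2 * K * n)) (slp n K θ) (bp n K (nd K n θ c) - c) ≤ 3 := by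
    rw [Vale.Agent.P122.AN.gau_sub_comm]
    exact gau_nd K n θ c
  have h := wg_shift M (θ := 0) (by positivity : (0 : ℝ) < 2 ^ (K * n)) (by positivity : (0 : ℝ) < 2 ^ (K * n))
    (by positivity : (0 : ℝ) < 2 ^ (2 * K * n)) h0 z
  norm_num at h ⊢
  exact h

end Vale.Agent.P076.H551
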