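import Vale.Agent.P076.H551.Sh
import Vale.Agent.P076.H879.Defs

/-! # P076 / H551 : energies of the tubes through a cube and amplitudes of the nodes -/

set_option autoImplicit false

open MeasureTheory Complex Set Vale.Agent.P122.C2 Vale.Agent.P122.AN Vale.Agent.P076.NS Vale.Agent.P076.H879
open scoped ENNReal NNReal FourierTransform

namespace Vale.Agent.P076.H551

theorem u1_le_am2 (M k n : ℕ) (g : Z2 → E3 → ℂ) (θ : Z2) (B : Fin 3 → ℤ) :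
    u1 M k n g θ B ≤ ENNReal.ofReal (4 ^ M) * am2 M n k (nd k n θ (cB n B)) (𝓕⁻ (g θ)) := by
  unfold u1 am2
  rw [mul_left_comm]
  refine mul_le_mul_right ?_ _
  rw [← lintegral_const_mul' _ _ ENNReal.ofReal_ne_top]
  refine lintegral_mono fun z => ?_
  calc _ ≤ ‖𝓕⁻ (g θ) z‖ₑ ^ 2 * (ENNReal.ofReal (4 ^ M) * wN M n k (nd k n θ (cB n B)) z) :=
        mul_le_mul_right (wg_le_wN M k n θ _ z) _
    _ = _ := by ring

theorem am2_le_u1 (M k n : ℕ) (g : Z2 → E3 → ℂ) (θ : Z2) (B : Fin 3 → ℤ) :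
    am2 M n k (nd k n θ (cB n B)) (𝓕⁻ (g θ)) ≤ ENNReal.ofReal (4 ^ M) * u1 M k n g θ B := by
  unfold u1 am2
  rw [mul_left_comm]
  refine mul_le_mul_right ?_ _
  rw [← lintegral_const_mul' _ _ ENNReal.ofReal_ne_top]
  refine lintegral_mono fun z => ?_
  calc _ ≤ ‖𝓕⁻ (g θ) z‖ₑ ^ 2 * (ENNReal.ofReal (4 ^ M) *
          wg M 0 (2 ^ (k * n)) (2 ^ (k * n)) (2 ^ (2 * k * n)) (slp n k θ) (z - cB n B)) :=
        mul_le_mul_right (wN_le_wg M k n θ _ z) _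
    _ = _ := by ring

/-- size of the time index of the node -/
theorem nd_T_le (k n : ℕ) (θ : Z2) (c : E3) : |((nd k n θ c).T : ℝ)| ≤ |c 2| / 2 ^ (2 * k * n) + 1 := by
  have hR : (0 : ℝ) < 2 ^ (2 * k * n) := by positivity
  have h2 := fl (y := c 2) hR
  have e : (nd k n θ c).T = ⌊c 2 / 2 ^ (2 * k * n)⌋ := rfl
  rw [e]
  have h3 : 2 ^ (2 * k * n) * |(⌊c 2 / 2 ^ (2 * k * n)⌋ : ℝ)| ≤ |c 2| + 2 ^ (2 * k * n) := by
    rw [← abs_of_pos hR, ← abs_mul, abs_of_pos hR]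
    have h4 : |2 ^ (2 * k * n) * (⌊c 2 / 2 ^ (2 * k * n)⌋ : ℝ)| ≤
        |c 2| + |c 2 - 2 ^ (2 * k * n) * (⌊c 2 / 2 ^ (2 * k * n)⌋ : ℝ)| := by
      have := abs_sub (c 2) (c 2 - 2 ^ (2 * k * n) * (⌊c 2 / 2 ^ (2 * k * n)⌋ : ℝ))
      rwa [sub_sub_cancel] at this
    linarith
  have e3 : |c 2| / 2 ^ (2 * k * n) + 1 = (|c 2| + 2 ^ (2 * k * n)) / 2 ^ (2 * k * n) := by
    rw [add_div, div_self hR.ne']
  rw [e3, le_div_iff₀ hR]
  linarith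

/-- size of the position of the node -/
theorem nd_o_le (k n : ℕ) {θ : Z2} (hθ : ∀ i, |slp n k θ i| ≤ 1) (c : E3) (i : Fin 2) :
    |((nd k n θ c).o i : ℝ)| ≤ (|hz c i| + 2 ^ (2 * k * n)) / 2 ^ (k * n) + 1 := by
  have hL : (0 : ℝ) < 2 ^ (k * n) := by positivity
  have hR : (0 : ℝ) < 2 ^ (2 * k * n) := by positivity
  have h2 := fl (y := c 2) hR
  set u : ℝ := c 2 - 2 ^ (2 * k * n) * ⌊c 2 / 2 ^ (2 * k * n)⌋ with hu
  have h3 := fl (y := hz c i - slp n k θ i * u) hL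
  have e : (nd k n θ c).o i = ⌊(hz c i - slp n k θ i * u) / 2 ^ (k * n)⌋ := rfl
  rw [e]
  have h6 : |hz c i - slp n k θ i * u| ≤ |hz c i| + 2 ^ (2 * k * n) := by
    refine (abs_sub _ _).trans ?_
    rw [abs_mul]
    have := mul_le_mul (hθ i) h2 (abs_nonneg _) zero_le_one
    linarith
  have h4 : |2 ^ (k * n) * (⌊(hz c i - slp n k θ i * u) / 2 ^ (k * n)⌋ : ℝ)| ≤
      |hz c i - slp n k θ i * u| + |(hz c i - slp n k θ i * u) -
        2 ^ (k * n) * (⌊(hz c i - slp n k θ i * u) / 2 ^ (k * n)⌋ : ℝ)| := by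
    have := abs_sub (hz c i - slp n k θ i * u) ((hz c i - slp n k θ i * u) -
      2 ^ (k * n) * (⌊(hz c i - slp n k θ i * u) / 2 ^ (k * n)⌋ : ℝ))
    rwa [sub_sub_cancel] at this
  rw [abs_mul, abs_of_pos hL] at h4
  have e3 : (|hz c i| + 2 ^ (2 * k * n)) / 2 ^ (k * n) + 1 = (|hz c i| + 2 ^ (2 * k * n) + 2 ^ (k * n)) / 2 ^ (k * n) := by
    rw [add_div (|hz c i| + 2 ^ (2 * k * n)), div_self hL.ne']
  rw [e3, le_div_iff₀ hL]
  linarith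

end Vale.Agent.P076.H551
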