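import Vale.Agent.P076.H819.KerT
import Vale.Agent.P076.X.Rep

/-! # P076 / H551 : [YLOC] one-dimensional kernel -/

set_option autoImplicit false

open MeasureTheory Complex Set
open scoped FourierTransform ENNReal

namespace Vale.Agent.P076.H551

open Vale.Agent.P076 Vale.Agent.P076.H819 Vale.Agent.P076.X

/-! ### the cut-off -/

/-- smooth cut-off in frequency: `1` on `|ζ| ≤ w`, `0` for `|ζ| ≥ 2 w` -/
noncomputable def ch (w ζ : ℝ) : ℂ := bmp 1 (w⁻¹ * ζ)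

theorem bmp_norm_le (ζ : ℝ) : ‖bmp 1 ζ‖ ≤ 1 := by
  unfold bmp
  rw [Complex.norm_real, Real.norm_eq_abs, abs_of_nonneg (ContDiffBump.nonneg _)]
  exact ContDiffBump.le_one _

theorem bmp_zero {ζ : ℝ} (h : 2 ≤ |ζ|) : bmp 1 ζ = 0 := by
  unfold bmp
  rw [ContDiffBump.zero_of_le_dist]
  · simp
  · rw [Real.dist_eq, sub_zero]
    simp only [max_self]
    linarith

theorem ch_one {w ζ : ℝ} (hw : 0 < w) (h : |ζ| ≤ w) : ch w ζ = 1 := by
  unfold ch
  refine bmp_one ?_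
  rw [abs_mul, abs_inv, abs_of_pos hw, inv_mul_le_iff₀ hw]
  linarith

theorem ch_norm_le (w ζ : ℝ) : ‖ch w ζ‖ ≤ 1 := bmp_norm_le _

theorem ch_supp {w ζ : ℝ} (hw : 0 < w) (h : ch w ζ ≠ 0) : |ζ| ≤ 2 * w := by
  by_contra h1
  rw [not_le] at h1
  refine h (bmp_zero ?_)
  rw [abs_mul, abs_inv, abs_of_pos hw, le_inv_mul_iff₀ hw]
  linarith

theorem ch_contDiff (w : ℝ) : ContDiff ℝ (⊤ : ℕ∞) (ch w) :=
  (bmp_contDiff 1).comp (contDiff_const.mul contDiff_id)

theorem ch_continuous (w : ℝ) : Continuous (ch w) := (ch_contDiff w).continuous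

theorem ch_cs {w : ℝ} (hw : 0 < w) : HasCompactSupport (ch w) := by
  refine HasCompactSupport.of_support_subset_isCompact (isCompact_Icc (a := -(2 * w)) (b := 2 * w)) fun ζ hζ => ?_
  exact abs_le.1 (ch_supp hw hζ)

/-! ### the kernel -/

/-- the kernel of `χ_w (D) e^{i t Δ}` -/
noncomputable def Kn (w t y : ℝ) : ℂ := ∫ ζ, ch w ζ * ex (y * ζ - t * ζ ^ 2)

theorem Kn_eq_osc (w t y : ℝ) : Kn w t y = Osc (ch w) (2 * Real.pi * y) (2 * Real.pi * t) := by
  unfold Kn Osc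
  congr 1; ext ζ
  rw [mul_comm]
  congr 1
  unfold ex
  congr 1
  push_cast; ring

theorem Kn_le (N : ℕ) : ∃ C : ℝ, 0 ≤ C ∧ ∀ w t y : ℝ, 0 < w →
    ‖Kn w t y‖ ≤ C * w * ((1 + w * |y| / (1 + w ^ 2 * |t|)) ^ N)⁻¹ := by
  obtain ⟨C, hC, h⟩ := osc_poly' N (bmp_contDiff 1) (bmp_cs 1)
  refine ⟨C, hC, fun w t y hw => ?_⟩
  have hs := osc_scale (bmp 1) (L := w⁻¹) (inv_pos.2 hw) 0 (2 * Real.pi * y) (2 * Real.pi * t)
  have e1 : (fun ξ : ℝ => bmp 1 (w⁻¹ * (ξ - 0))) = ch w := by ext ξ; rw [sub_zero]; rfl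
  rw [e1] at hs
  rw [Kn_eq_osc, hs, inv_inv]
  have h1 := h ((2 * Real.pi * y - 2 * (2 * Real.pi * t) * 0) / w⁻¹) (2 * Real.pi * t / w⁻¹ ^ 2)
  have hpi := Real.pi_gt_three
  have h2 : 1 + w * |y| / (1 + w ^ 2 * |t|) ≤ 1 + |(2 * Real.pi * y - 2 * (2 * Real.pi * t) * 0) / w⁻¹| /
      (1 + |2 * Real.pi * t / w⁻¹ ^ 2|) := by
    have a1 : |(2 * Real.pi * y - 2 * (2 * Real.pi * t) * 0) / w⁻¹| = 2 * Real.pi * (w * |y|) := by
      rw [mul_zero, sub_zero, div_inv_eq_mul, abs_mul, abs_mul, abs_of_pos hw, abs_of_pos (by positivity : 0 < 2 * Real.pi)]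
      ring
    have a2 : |2 * Real.pi * t / w⁻¹ ^ 2| = 2 * Real.pi * (w ^ 2 * |t|) := by
      rw [inv_pow, div_inv_eq_mul, abs_mul, abs_mul, abs_of_pos (by positivity : 0 < w ^ 2),
        abs_of_pos (by positivity : 0 < 2 * Real.pi)]
      ring
    rw [a1, a2]
    have a3 : w * |y| / (1 + w ^ 2 * |t|) ≤ 2 * Real.pi * (w * |y|) / (1 + 2 * Real.pi * (w ^ 2 * |t|)) := by
      rw [div_le_div_iff₀ (by positivity) (by positivity)]
      have b1 : 0 ≤ w * |y| := by positivity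
      have b2 : 0 ≤ w ^ 2 * |t| := by positivity
      nlinarith
    linarith
  calc w * ‖Osc (bmp 1) ((2 * Real.pi * y - 2 * (2 * Real.pi * t) * 0) / w⁻¹) (2 * Real.pi * t / w⁻¹ ^ 2)‖
      ≤ w * (C * ((1 + |(2 * Real.pi * y - 2 * (2 * Real.pi * t) * 0) / w⁻¹| /
        (1 + |2 * Real.pi * t / w⁻¹ ^ 2|)) ^ N)⁻¹) := mul_le_mul_of_nonneg_left h1 hw.le
    _ ≤ w * (C * ((1 + w * |y| / (1 + w ^ 2 * |t|)) ^ N)⁻¹) := by gcongr
    _ = _ := by ring

theorem Kn_continuous {w : ℝ} (hw : 0 < w) (t : ℝ) : Continuous (Kn w t) := by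
  have h := osc_continuous (ch_continuous w) (ch_cs hw) (2 * Real.pi * t)
  have e : Kn w t = fun y => Osc (ch w) (2 * Real.pi * y) (2 * Real.pi * t) := by ext y; exact Kn_eq_osc w t y
  rw [e]
  exact h.comp (by fun_prop)

theorem Kn_integrable {w : ℝ} (hw : 0 < w) (t : ℝ) : Integrable (Kn w t) := by
  have h := osc_integrable (ch_contDiff w) (ch_cs hw) (2 * Real.pi * t)
  have e : Kn w t = fun y => (fun u => Osc (ch w) u (2 * Real.pi * t)) (2 * Real.pi * y) := by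
    ext y; exact Kn_eq_osc w t y
  rw [e]
  exact h.comp_mul_left' (by positivity)

theorem Kn_fourier {w : ℝ} (hw : 0 < w) (t ζ : ℝ) : ∫ y, Kn w t y * ex (-(y * ζ)) = ch w ζ * ex (-(t * ζ ^ 2)) := by
  have h := osc_inv (ch_contDiff w) (ch_cs hw) (2 * Real.pi * t) ζ
  have hpi : (0:ℝ) < 2 * Real.pi := by positivity
  have e1 := Measure.integral_comp_mul_left (fun u : ℝ => cexp (-(I * (u * ζ))) * Osc (ch w) u (2 * Real.pi * t))
    (2 * Real.pi)
  push_cast at h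
  have e2 : ∫ y, Kn w t y * ex (-(y * ζ)) = ∫ y : ℝ, (fun u : ℝ => cexp (-(I * (u * ζ))) *
      Osc (ch w) u (2 * Real.pi * t)) (2 * Real.pi * y) := by
    congr 1; ext y
    rw [Kn_eq_osc, mul_comm]
    simp only
    congr 1
    unfold ex
    congr 1
    push_cast; ring
  rw [e2, e1]
  have e3 : (∫ u : ℝ, cexp (-(I * (u * ζ))) * Osc (ch w) u (2 * Real.pi * t)) =
      2 * Real.pi * (cexp (-(I * (2 * Real.pi * t * ζ ^ 2))) * ch w ζ) := by
    rw [← h]
  rw [e3, abs_of_pos (inv_pos.2 hpi), Complex.real_smul]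
  have e4 : ex (-(t * ζ ^ 2)) = cexp (-(I * (2 * Real.pi * t * ζ ^ 2))) := by
    unfold ex
    congr 1
    push_cast; ring
  rw [e4]
  have : (Real.pi : ℂ) ≠ 0 := by exact_mod_cast Real.pi_ne_zero
  push_cast
  field_simp

theorem Kn_shift {w : ℝ} (hw : 0 < w) (t y ζ : ℝ) :
    ∫ y', Kn w t (y - y') * ex (y' * ζ) = ch w ζ * ex (y * ζ - t * ζ ^ 2) := by
  have e := integral_sub_left_eq_self (fun u : ℝ => Kn w t u * ex ((y - u) * ζ)) volume y
  have e1 : (fun y' : ℝ => Kn w t (y - y') * ex (y' * ζ)) = fun y' => (fun u : ℝ => Kn w t u * ex ((y - u) * ζ)) (y - y') := by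
    ext y'
    simp only
    congr 3
    ring
  rw [e1, e]
  have e2 : (fun u : ℝ => Kn w t u * ex ((y - u) * ζ)) = fun u => ex (y * ζ) * (Kn w t u * ex (-(u * ζ))) := by
    ext u
    rw [show (y - u) * ζ = y * ζ + -(u * ζ) by ring, X.ex_add]
    ring
  rw [e2, integral_const_mul, Kn_fourier hw, show y * ζ - t * ζ ^ 2 = y * ζ + -(t * ζ ^ 2) by ring, X.ex_add]
  ring

/-- **representation by the kernel**, with parameters -/
theorem kernel_rep {Ω : Type*} [MeasurableSpace Ω] {μ : Measure Ω} [SFinite μ] {A : Ω → ℂ} (hA : Integrable A μ)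
    {θ : Ω → ℝ} (hθ : Measurable θ) {w : ℝ} (hw : 0 < w) (hs : ∀ p, A p ≠ 0 → |θ p| ≤ w) (t y : ℝ) :
    ∫ p, A p * ex (y * θ p - t * θ p ^ 2) ∂μ = ∫ y', Kn w t (y - y') * ∫ p, A p * ex (y' * θ p) ∂μ := by
  have hK : Integrable (fun y' : ℝ => Kn w t (y - y')) := (Kn_integrable hw t).comp_sub_left y
  have hprod : Integrable (fun q : ℝ × Ω => Kn w t (y - q.1) * A q.2) (volume.prod μ) := hK.mul_prod hA
  have hint : Integrable (Function.uncurry fun (y' : ℝ) (p : Ω) => Kn w t (y - y') * (A p * ex (y' * θ p)))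
      (volume.prod μ) := by
    have hm : AEStronglyMeasurable (fun q : ℝ × Ω => ex (q.1 * θ q.2)) (volume.prod μ) := by
      refine Measurable.aestronglyMeasurable ?_
      exact X.measurable_ex.comp (measurable_fst.mul (hθ.comp measurable_snd))
    have h2 := hprod.mul_bdd (c := 1) hm (Filter.Eventually.of_forall fun q => by rw [X.norm_ex])
    refine h2.congr (Filter.Eventually.of_forall fun q => ?_)
    simp only [Function.uncurry]
    ring
  have e1 : ∀ y', Kn w t (y - y') * ∫ p, A p * ex (y' * θ p) ∂μ = ∫ p, Kn w t (y - y') * (A p * ex (y' * θ p)) ∂μ :=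
    fun y' => (integral_const_mul _ _).symm
  simp_rw [e1]
  rw [integral_integral_swap hint]
  refine integral_congr_ae (Filter.Eventually.of_forall fun p => ?_)
  simp only
  have e2 : ∀ y', Kn w t (y - y') * (A p * ex (y' * θ p)) = A p * (Kn w t (y - y') * ex (y' * θ p)) := fun y' => by ring
  simp_rw [e2]
  rw [integral_const_mul, Kn_shift hw]
  by_cases hp : A p = 0
  · rw [hp, zero_mul, zero_mul]
  · rw [ch_one hw (hs p hp), one_mul]

end Vale.Agent.P076.H551
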