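import Vale.Agent.P076.H551.YA
import Vale.Agent.P076.H23.Defs

/-! # P076 / H551 : [YLOC] cutting a profile to a `y`-window -/

set_option autoImplicit false

open MeasureTheory Complex Set
open scoped FourierTransform ENNReal

namespace Vale.Agent.P076.H551

open Vale.Agent.P076 Vale.Agent.P076.H819 Vale.Agent.P076.X Vale.Agent.P076.H23

/-! ### coordinates -/

/-- coordinates on `E 2` -/
noncomputable def Je : ℝ × ℝ ≃ᵐ E 2 := MeasurableEquiv.finTwoArrow.symm.trans (MeasurableEquiv.toLp 2 (Fin 2 → ℝ))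

theorem Je_mp : MeasurePreserving Je volume volume :=
  ((volume_preserving_finTwoArrow ℝ).symm _).trans (PiLp.volume_preserving_toLp (Fin 2))

@[simp] theorem Je_zero (p : ℝ × ℝ) : (Je p) 0 = p.1 := rfl
@[simp] theorem Je_one (p : ℝ × ℝ) : (Je p) 1 = p.2 := rfl

theorem Je_eta (η : E 2) : Je (η 0, η 1) = η := by
  ext k
  fin_cases k <;> rfl

theorem integral_Je (f : E 2 → ℂ) : ∫ η, f η = ∫ p : ℝ × ℝ, f (Je p) :=
  (Je_mp.integral_comp Je.measurableEmbedding f).symm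

theorem integral_JeR (f : E 2 → ℝ) : ∫ η, f η = ∫ p : ℝ × ℝ, f (Je p) :=
  (Je_mp.integral_comp Je.measurableEmbedding f).symm

theorem lintegral_Je (f : E 2 → ℝ≥0∞) : ∫⁻ η, f η = ∫⁻ p : ℝ × ℝ, f (Je p) :=
  (Je_mp.lintegral_comp_emb Je.measurableEmbedding f).symm

theorem evo_Je (G : E 2 → ℂ) (z : E 2) (t : ℝ) :
    evo G z t 0 = ∫ p : ℝ × ℝ, (G (Je p) * ex (z 0 * p.1 - t * p.1 ^ 2)) * ex (z 1 * p.2 - t * p.2 ^ 2) := by
  unfold evo
  rw [integral_Je]
  congr 1; ext p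
  have h1 : inner ℝ z (Je p) = z 0 * p.1 + z 1 * p.2 := by
    simp [PiLp.inner_apply, Fin.sum_univ_two, mul_comm]
  have h2 : ‖Je p‖ ^ 2 = p.1 ^ 2 + p.2 ^ 2 := by
    rw [EuclideanSpace.norm_sq_eq]; simp [Fin.sum_univ_two]
  rw [h1, h2, mul_assoc (G (Je p)), ← X.ex_add, mul_comm]
  congr 1
  unfold ex
  congr 1
  push_cast; ring

theorem memLp_two_of_bdd' {μ : Measure ℝ} {g : ℝ → ℂ} (hi : Integrable g μ) {M : ℝ} (hM : ∀ ξ, ‖g ξ‖ ≤ M) : MemLp g 2 μ := by
  rw [memLp_two_iff_integrable_sq_norm hi.aestronglyMeasurable]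
  refine (hi.norm.const_mul M).mono' (hi.aestronglyMeasurable.norm.pow 2) (Filter.Eventually.of_forall fun ξ => ?_)
  rw [Real.norm_eq_abs, abs_of_nonneg (by positivity), sq]
  exact mul_le_mul_of_nonneg_right (hM ξ) (norm_nonneg _)

/-! ### partial Fourier transform -/

section
variable {w b : ℝ} {G : E 2 → ℂ}

theorem G_bound (hG : Str w G) : ∃ b : ℝ, 0 ≤ b ∧ ∀ η, ‖G η‖ ≤ b := by
  obtain ⟨b, hb⟩ := hG.bdd
  exact ⟨b, (norm_nonneg _).trans (hb 0), hb⟩

theorem G_comp_meas (hG : Str w G) : Measurable fun p : ℝ × ℝ => G (Je p) := hG.meas.comp Je.measurable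

/-- the box of the profile -/
theorem G_int (hG : Str w G) : Integrable fun p : ℝ × ℝ => G (Je p) := by
  obtain ⟨b, hb0, hb⟩ := G_bound hG
  have h1 : Integrable (fun p : ℝ × ℝ => (Icc (-1 : ℝ) 1 ×ˢ Icc (-w) w).indicator (fun _ => b) p) := by
    refine (integrable_indicator_iff (measurableSet_Icc.prod measurableSet_Icc)).2 (integrableOn_const ?_)
    rw [Measure.volume_eq_prod, Measure.prod_prod]
    exact ENNReal.mul_ne_top (by simp) (by simp)
  refine h1.mono' (G_comp_meas hG).aestronglyMeasurable (Filter.Eventually.of_forall fun p => ?_)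
  by_cases hp : G (Je p) = 0
  · rw [hp, norm_zero]
    exact indicator_nonneg (fun _ _ => hb0) _
  · have a1 := abs_le.1 (hG.s0 _ hp)
    have a2 := abs_le.1 (hG.s1 _ hp)
    rw [Je_zero] at a1
    rw [Je_one] at a2
    rw [indicator_of_mem (show p ∈ Icc (-1 : ℝ) 1 ×ˢ Icc (-w) w from ⟨a1, a2⟩)]
    exact hb _

theorem G_slice_int (hG : Str w G) (ξ : ℝ) : Integrable fun ζ : ℝ => G (Je (ξ, ζ)) := by
  obtain ⟨b, hb0, hb⟩ := G_bound hG
  have h1 : Integrable (fun ζ : ℝ => (Icc (-w) w).indicator (fun _ => b) ζ) :=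
    (integrable_indicator_iff measurableSet_Icc).2 (integrableOn_const (by simp))
  refine h1.mono' ((G_comp_meas hG).comp (measurable_const.prodMk measurable_id)).aestronglyMeasurable
    (Filter.Eventually.of_forall fun ζ => ?_)
  by_cases hp : G (Je (ξ, ζ)) = 0
  · simp only [hp, norm_zero]
    exact indicator_nonneg (fun _ _ => hb0) _
  · have a2 := abs_le.1 (hG.s1 _ hp)
    rw [Je_one] at a2
    rw [indicator_of_mem (show ζ ∈ Icc (-w) w from a2)]
    exact hb _

/-- the partial Fourier transform in `y` -/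
noncomputable def Fp (G : E 2 → ℂ) (ξ y : ℝ) : ℂ := ∫ ζ, G (Je (ξ, ζ)) * ex (y * ζ)

theorem Fp_meas (hG : Str w G) : Measurable fun q : ℝ × ℝ => Fp G q.1 q.2 := by
  have h : Measurable (Function.uncurry fun (q : ℝ × ℝ) (ζ : ℝ) => G (Je (q.1, ζ)) * ex (q.2 * ζ)) :=
    ((G_comp_meas hG).comp ((measurable_fst.comp measurable_fst).prodMk measurable_snd)).mul
      (X.measurable_ex.comp ((measurable_snd.comp measurable_fst).mul measurable_snd))
  exact h.stronglyMeasurable.integral_prod_right'.measurable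

theorem Fp_zero (hG : Str w G) {ξ : ℝ} (h : 1 < |ξ|) (y : ℝ) : Fp G ξ y = 0 := by
  unfold Fp
  have : ∀ ζ, G (Je (ξ, ζ)) = 0 := fun ζ => by
    by_contra h1
    have := hG.s0 _ h1
    rw [Je_zero] at this
    exact absurd this (not_le.2 h)
  simp [this]

theorem Fp_le (hG : Str w G) {b : ℝ} (hb0 : 0 ≤ b) (hb : ∀ η, ‖G η‖ ≤ b) (ξ y : ℝ) : ‖Fp G ξ y‖ ≤ b * (2 * |w|) := by
  have h1 : Integrable (fun ζ : ℝ => (Icc (-w) w).indicator (fun _ => b) ζ) :=
    (integrable_indicator_iff measurableSet_Icc).2 (integrableOn_const (by simp))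
  unfold Fp
  calc ‖∫ ζ, G (Je (ξ, ζ)) * ex (y * ζ)‖ ≤ ∫ ζ, (Icc (-w) w).indicator (fun _ => b) ζ := by
        refine norm_integral_le_of_norm_le h1 (Filter.Eventually.of_forall fun ζ => ?_)
        rw [norm_mul, X.norm_ex, mul_one]
        by_cases hp : G (Je (ξ, ζ)) = 0
        · rw [hp, norm_zero]
          exact indicator_nonneg (fun _ _ => hb0) _
        · have a2 := abs_le.1 (hG.s1 _ hp)
          rw [Je_one] at a2
          rw [indicator_of_mem (show ζ ∈ Icc (-w) w from a2)]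
          exact hb _
    _ = (volume.real (Icc (-w) w)) * b := by
        rw [integral_indicator measurableSet_Icc, setIntegral_const, smul_eq_mul]
    _ ≤ b * (2 * |w|) := by
        rw [mul_comm]
        refine mul_le_mul_of_nonneg_left ?_ hb0
        rw [Measure.real, Real.volume_Icc]
        refine ENNReal.toReal_le_of_le_ofReal (by positivity) (ENNReal.ofReal_le_ofReal ?_)
        linarith [le_abs_self w]

/-- Plancherel in `ζ` -/
theorem Fp_planch (hG : Str w G) (ξ : ℝ) : ∫⁻ y, ‖Fp G ξ y‖ₑ ^ 2 = ∫⁻ ζ, ‖G (Je (ξ, ζ))‖ₑ ^ 2 := by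
  obtain ⟨b, hb0, hb⟩ := G_bound hG
  have hi := G_slice_int hG ξ
  exact planch_ex (fun ζ => G (Je (ξ, ζ))) hi (memLp_two_of_bdd' hi fun ζ => hb _)

end

end Vale.Agent.P076.H551
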