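import Vale.Agent.P076.H551.YB

/-! # P076 / H551 : [YLOC] the cut profile -/

set_option autoImplicit false

open MeasureTheory Complex Set
open scoped FourierTransform ENNReal

namespace Vale.Agent.P076.H551

open Vale.Agent.P076 Vale.Agent.P076.H819 Vale.Agent.P076.X Vale.Agent.P076.H23

section
variable {w b : ℝ} {G : E 2 → ℂ}

/-- the profile of `χ_w (D_y) (1_Q (y) f)` -/
noncomputable def cut (w : ℝ) (Q : Set ℝ) (G : E 2 → ℂ) (η : E 2) : ℂ :=
  ch w (η 1) * ∫ y in Q, Fp G (η 0) y * ex (-(y * η 1))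

/-- evolution in `x` only -/
noncomputable def vv (G : E 2 → ℂ) (x y t : ℝ) : ℂ :=
  ∫ p : ℝ × ℝ, (G (Je p) * ex (x * p.1 - t * p.1 ^ 2)) * ex (y * p.2)

theorem evo_conv (hw : 0 < w) (hG : Str w G) (z : E 2) (t : ℝ) :
    evo G z t 0 = ∫ y, Kn w t (z 1 - y) * vv G (z 0) y t := by
  have hA : Integrable (fun p : ℝ × ℝ => G (Je p) * ex (z 0 * p.1 - t * p.1 ^ 2)) := by
    refine (G_int hG).mul_bdd (c := 1) (Measurable.aestronglyMeasurable ?_) (Filter.Eventually.of_forall fun p => by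
      rw [X.norm_ex])
    exact X.measurable_ex.comp (by fun_prop)
  rw [evo_Je, kernel_rep hA measurable_snd hw (fun p hp => ?_) t (z 1)]
  · rfl
  · have : G (Je p) ≠ 0 := fun h => hp (by rw [h, zero_mul])
    have := hG.s1 _ this
    rwa [Je_one] at this

theorem cut_meas (hG : Str w G) {Q : Set ℝ} : Measurable (cut w Q G) := by
  unfold cut
  refine ((ch_continuous w).measurable.comp (by fun_prop)).mul ?_
  have h : Measurable (Function.uncurry fun (η : E 2) (y : ℝ) => Fp G (η 0) y * ex (-(y * η 1))) := by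
    refine Measurable.mul ?_ ?_
    · exact (Fp_meas hG).comp ((by fun_prop : Measurable fun q : E 2 × ℝ => q.1 0).prodMk measurable_snd)
    · exact X.measurable_ex.comp (by fun_prop)
  exact (h.stronglyMeasurable.integral_prod_right' (ν := volume.restrict Q)).measurable

theorem cut_bdd (hG : Str w G) {Q : Set ℝ} (hQ : volume Q ≠ ⊤) : ∃ b : ℝ, ∀ η, ‖cut w Q G η‖ ≤ b := by
  obtain ⟨b, hb0, hb⟩ := G_bound hG
  refine ⟨(b * (2 * |w|)) * volume.real Q, fun η => ?_⟩
  unfold cut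
  rw [norm_mul]
  have h1 : ‖∫ y in Q, Fp G (η 0) y * ex (-(y * η 1))‖ ≤ (b * (2 * |w|)) * volume.real Q := by
    refine norm_setIntegral_le_of_norm_le_const (lt_top_iff_ne_top.2 hQ) fun y _ => ?_
    rw [norm_mul, X.norm_ex, mul_one]
    exact Fp_le hG hb0 hb _ _
  calc _ ≤ 1 * _ := mul_le_mul (ch_norm_le _ _) h1 (norm_nonneg _) zero_le_one
    _ = _ := one_mul _

theorem cut_ne {Q : Set ℝ} {η : E 2} (h : cut w Q G η ≠ 0) : ∃ ζ, G (Je (η 0, ζ)) ≠ 0 := by
  by_contra h1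
  simp only [not_exists, not_not] at h1
  apply h
  unfold cut Fp
  simp [h1]

theorem cut_str (hw : 0 < w) (hG : Str w G) {Q : Set ℝ} (hQ : volume Q ≠ ⊤) : Str (2 * w) (cut w Q G) where
  meas := cut_meas hG
  bdd := cut_bdd hG hQ
  s0 η hη := by
    obtain ⟨ζ, hζ⟩ := cut_ne hη
    have := hG.s0 _ hζ
    rwa [Je_zero] at this
  s1 η hη := by
    refine ch_supp hw fun h => hη ?_
    unfold cut
    rw [h, zero_mul]

theorem Fp_int_prod (hG : Str w G) (x y t : ℝ) :
    vv G x y t = ∫ ξ, Fp G ξ y * ex (x * ξ - t * ξ ^ 2) := by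
  unfold vv
  have hi : Integrable (fun p : ℝ × ℝ => (G (Je p) * ex (x * p.1 - t * p.1 ^ 2)) * ex (y * p.2)) := by
    refine Integrable.mul_bdd (c := 1) ?_ (Measurable.aestronglyMeasurable (X.measurable_ex.comp (by fun_prop)))
      (Filter.Eventually.of_forall fun p => by rw [X.norm_ex])
    refine (G_int hG).mul_bdd (c := 1) (Measurable.aestronglyMeasurable (X.measurable_ex.comp (by fun_prop)))
      (Filter.Eventually.of_forall fun p => by rw [X.norm_ex])
  rw [Measure.volume_eq_prod, integral_prod _ hi]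
  congr 1; ext ξ
  unfold Fp
  rw [← integral_mul_const]
  congr 1; ext ζ
  simp only
  ring

/-- the evolution of the cut profile -/
theorem evo_cut (hw : 0 < w) (hG : Str w G) {Q : Set ℝ} (hQm : MeasurableSet Q) (hQ : volume Q ≠ ⊤) (z : E 2) (t : ℝ) :
    evo (cut w Q G) z t 0 = ∫ y in Q, Kn w t (z 1 - y) * vv G (z 0) y t := by
  obtain ⟨b, hb0, hb⟩ := G_bound hG
  have : IsFiniteMeasure (volume.restrict Q) := ⟨by rw [Measure.restrict_apply_univ]; exact lt_top_iff_ne_top.2 hQ⟩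
  rw [evo_Je]
  -- the integrand with three variables
  set Φ : (ℝ × ℝ) → ℝ → ℂ := fun p y => (Fp G p.1 y * ex (z 0 * p.1 - t * p.1 ^ 2)) *
    (ch w p.2 * ex ((z 1 - y) * p.2 - t * p.2 ^ 2)) with hΦ
  have e1 : ∀ p : ℝ × ℝ, (cut w Q G (Je p) * ex (z 0 * p.1 - t * p.1 ^ 2)) * ex (z 1 * p.2 - t * p.2 ^ 2) =
      ∫ y in Q, Φ p y := by
    intro p
    unfold cut
    rw [Je_zero, Je_one]
    have : ∀ y, Φ p y = (ch w p.2 * ex (z 0 * p.1 - t * p.1 ^ 2) * ex (z 1 * p.2 - t * p.2 ^ 2)) *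
        (Fp G p.1 y * ex (-(y * p.2))) := by
      intro y
      rw [hΦ]
      simp only
      rw [show (z 1 - y) * p.2 - t * p.2 ^ 2 = (z 1 * p.2 - t * p.2 ^ 2) + -(y * p.2) by ring, X.ex_add]
      ring
    simp_rw [this]
    rw [integral_const_mul]
    ring
  simp_rw [e1]
  have hm : Measurable (Function.uncurry Φ) := by
    rw [hΦ]
    refine Measurable.mul (Measurable.mul ?_ (X.measurable_ex.comp (by fun_prop)))
      (Measurable.mul ((ch_continuous w).measurable.comp (by fun_prop)) (X.measurable_ex.comp (by fun_prop)))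
    exact (Fp_meas hG).comp ((measurable_fst.comp measurable_fst).prodMk measurable_snd)
  have hch : Integrable (fun ζ : ℝ => ‖ch w ζ‖) :=
    ((ch_continuous w).integrable_of_hasCompactSupport (ch_cs hw)).norm
  have hind : Integrable (fun ξ : ℝ => (Icc (-1 : ℝ) 1).indicator (fun _ => b * (2 * |w|)) ξ) :=
    (integrable_indicator_iff measurableSet_Icc).2 (integrableOn_const (by simp))
  have hint : Integrable (Function.uncurry Φ) (volume.prod (volume.restrict Q)) := by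
    have h1 : Integrable (fun q : (ℝ × ℝ) × ℝ => ((Icc (-1 : ℝ) 1).indicator (fun _ => b * (2 * |w|)) q.1.1 * ‖ch w q.1.2‖) * 1)
        ((volume.prod volume).prod (volume.restrict Q)) :=
      (hind.mul_prod hch).mul_prod (integrable_const (1:ℝ))
    refine h1.mono' hm.aestronglyMeasurable (Filter.Eventually.of_forall fun q => ?_)
    rw [mul_one]
    simp only [Function.uncurry, hΦ, norm_mul, X.norm_ex, mul_one]
    refine mul_le_mul_of_nonneg_right ?_ (norm_nonneg _)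
    by_cases hq : |q.1.1| ≤ 1
    · rw [indicator_of_mem (show q.1.1 ∈ Icc (-1 : ℝ) 1 from abs_le.1 hq)]
      exact Fp_le hG hb0 hb _ _
    · rw [Fp_zero hG (not_le.1 hq), norm_zero]
      exact indicator_nonneg (fun _ _ => by positivity) _
  rw [integral_integral_swap hint]
  refine integral_congr_ae (Filter.Eventually.of_forall fun y => ?_)
  simp only
  rw [Fp_int_prod hG, mul_comm]
  have e2 : ∫ p : ℝ × ℝ, Φ p y = (∫ ξ, Fp G ξ y * ex (z 0 * ξ - t * ξ ^ 2)) *
      ∫ ζ, ch w ζ * ex ((z 1 - y) * ζ - t * ζ ^ 2) :=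
    integral_prod_mul (fun ξ => Fp G ξ y * ex (z 0 * ξ - t * ξ ^ 2)) (fun ζ => ch w ζ * ex ((z 1 - y) * ζ - t * ζ ^ 2))
  rw [e2]
  rfl

/-- the error is an integral over the complement of the window -/
theorem evo_sub_cut (hw : 0 < w) (hG : Str w G) {Q : Set ℝ} (hQm : MeasurableSet Q) (hQ : volume Q ≠ ⊤) (z : E 2) (t : ℝ) :
    evo G z t 0 - evo (cut w Q G) z t 0 = ∫ y in Qᶜ, Kn w t (z 1 - y) * vv G (z 0) y t := by
  have hv : ∀ y, ‖vv G (z 0) y t‖ ≤ ∫ p : ℝ × ℝ, ‖G (Je p)‖ := by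
    intro y
    unfold vv
    refine (norm_integral_le_integral_norm _).trans (le_of_eq ?_)
    congr 1; ext p
    rw [norm_mul, norm_mul, X.norm_ex, X.norm_ex, mul_one, mul_one]
  have hvm : Measurable fun y => vv G (z 0) y t := by
    have h : Measurable (Function.uncurry fun (y : ℝ) (ξ : ℝ) => Fp G ξ y * ex (z 0 * ξ - t * ξ ^ 2)) :=
      ((Fp_meas hG).comp (measurable_snd.prodMk measurable_fst)).mul (X.measurable_ex.comp (by fun_prop))
    have e : (fun y => vv G (z 0) y t) = fun y => ∫ ξ, Fp G ξ y * ex (z 0 * ξ - t * ξ ^ 2) := by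
      ext y; exact Fp_int_prod hG _ _ _
    rw [e]
    exact h.stronglyMeasurable.integral_prod_right'.measurable
  have hi : Integrable (fun y => Kn w t (z 1 - y) * vv G (z 0) y t) :=
    ((Kn_integrable hw t).comp_sub_left (z 1)).mul_bdd (c := ∫ p : ℝ × ℝ, ‖G (Je p)‖) hvm.aestronglyMeasurable
      (Filter.Eventually.of_forall hv)
  rw [evo_conv hw hG, evo_cut hw hG hQm hQ, ← integral_add_compl hQm hi]
  ring

/-- mass of the cut profile -/
theorem cut_mass (hG : Str w G) {Q : Set ℝ} (hQm : MeasurableSet Q) (hQ : volume Q ≠ ⊤) :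
    ∫⁻ η, ‖cut w Q G η‖ₑ ^ 2 ≤ ∫⁻ y in Q, ∫⁻ ξ, ‖Fp G ξ y‖ₑ ^ 2 := by
  obtain ⟨b, hb0, hb⟩ := G_bound hG
  have : IsFiniteMeasure (volume.restrict Q) := ⟨by rw [Measure.restrict_apply_univ]; exact lt_top_iff_ne_top.2 hQ⟩
  have hFm := Fp_meas hG
  rw [lintegral_Je]
  have h1 : ∀ p : ℝ × ℝ, ‖cut w Q G (Je p)‖ₑ ^ 2 ≤ ‖∫ y in Q, Fp G p.1 y * ex (-(y * p.2))‖ₑ ^ 2 := by
    intro p
    unfold cut
    rw [Je_zero, Je_one, enorm_mul]
    refine pow_le_pow_left' ?_ 2
    refine mul_le_of_le_one_left' ?_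
    rw [← ofReal_norm]
    exact ENNReal.ofReal_le_one.2 (ch_norm_le _ _)
  refine (lintegral_mono h1).trans ?_
  have hm : Measurable fun p : ℝ × ℝ => ‖∫ y in Q, Fp G p.1 y * ex (-(y * p.2))‖ₑ ^ 2 := by
    have h : Measurable (Function.uncurry fun (p : ℝ × ℝ) (y : ℝ) => Fp G p.1 y * ex (-(y * p.2))) :=
      (hFm.comp ((measurable_fst.comp measurable_fst).prodMk measurable_snd)).mul (X.measurable_ex.comp (by fun_prop))
    exact (h.stronglyMeasurable.integral_prod_right' (ν := volume.restrict Q)).measurable.enorm.pow_const 2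
  rw [Measure.volume_eq_prod, lintegral_prod _ hm.aemeasurable]
  have h2 : ∀ ξ : ℝ, ∫⁻ ζ, ‖∫ y in Q, Fp G ξ y * ex (-(y * ζ))‖ₑ ^ 2 = ∫⁻ y in Q, ‖Fp G ξ y‖ₑ ^ 2 := by
    intro ξ
    have hs : Measurable fun y => Fp G ξ y := hFm.comp (measurable_const.prodMk measurable_id)
    have hiQ : Integrable (fun y => Fp G ξ y) (volume.restrict Q) :=
      Integrable.of_bound hs.aestronglyMeasurable (b * (2 * |w|)) (Filter.Eventually.of_forall fun y => Fp_le hG hb0 hb _ _)
    have hi : Integrable (Q.indicator fun y => Fp G ξ y) := (integrable_indicator_iff hQm).2 hiQ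
    have hb' : ∀ y, ‖Q.indicator (fun y => Fp G ξ y) y‖ ≤ b * (2 * |w|) := fun y =>
      (norm_indicator_le_norm_self _ _).trans (Fp_le hG hb0 hb _ _)
    have hp := planch_ex _ hi (memLp_two_of_bdd' hi hb')
    have e1 : ∫⁻ y, ‖Q.indicator (fun y => Fp G ξ y) y‖ₑ ^ 2 = ∫⁻ y in Q, ‖Fp G ξ y‖ₑ ^ 2 := by
      rw [← lintegral_indicator hQm]
      refine lintegral_congr fun y => ?_
      by_cases hy : y ∈ Q
      · rw [indicator_of_mem hy, indicator_of_mem hy]
      · rw [indicator_of_notMem hy, indicator_of_notMem hy]; simp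
    have e2 : ∀ ζ : ℝ, ∫ y, Q.indicator (fun y => Fp G ξ y) y * ex (ζ * y) = ∫ y in Q, Fp G ξ y * ex (-(y * (-ζ))) := by
      intro ζ
      rw [← integral_indicator hQm]
      congr 1; ext y
      by_cases hy : y ∈ Q
      · rw [indicator_of_mem hy, indicator_of_mem hy]
        congr 2; ring
      · rw [indicator_of_notMem hy, indicator_of_notMem hy, zero_mul]
    rw [← e1, ← hp]
    simp_rw [e2]
    exact ((Measure.measurePreserving_neg (volume : Measure ℝ)).lintegral_comp_emb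
      (MeasurableEquiv.neg ℝ).measurableEmbedding (fun ζ => ‖∫ y in Q, Fp G ξ y * ex (-(y * ζ))‖ₑ ^ 2)).symm
  simp_rw [h2]
  refine le_of_eq (lintegral_lintegral_swap ?_)
  exact (hFm.enorm.pow_const 2).aemeasurable

/-- total mass -/
theorem Fp_mass (hG : Str w G) : ∫⁻ y, ∫⁻ ξ, ‖Fp G ξ y‖ₑ ^ 2 = ∫⁻ η, ‖G η‖ₑ ^ 2 := by
  have hFm := Fp_meas hG
  have hGm := G_comp_meas hG
  have e1 : ∫⁻ y, ∫⁻ ξ, ‖Fp G ξ y‖ₑ ^ 2 = ∫⁻ ξ, ∫⁻ y, ‖Fp G ξ y‖ₑ ^ 2 :=
    lintegral_lintegral_swap ((hFm.comp measurable_swap).enorm.pow_const 2).aemeasurable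
  rw [e1]
  simp_rw [Fp_planch hG]
  rw [lintegral_Je, Measure.volume_eq_prod, lintegral_prod _ (hGm.enorm.pow_const 2).aemeasurable]

end

end Vale.Agent.P076.H551
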