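import Vale.Agent.P076.H551.YC
import Vale.Agent.P076.H780.Triv

/-! # P076 / H551 : [YLOC] the sum of the errors -/

set_option autoImplicit false

open MeasureTheory Complex Set
open scoped FourierTransform ENNReal

namespace Vale.Agent.P076.H551

open Vale.Agent.P076 Vale.Agent.P076.H819 Vale.Agent.P076.X Vale.Agent.P076.H23 Vale.Agent.P076.H780

/-! ### weights -/

/-- the weight -/
noncomputable def k2 (u : ℝ) : ℝ≥0∞ := ENNReal.ofReal (((1 + |u|) ^ 2)⁻¹)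

theorem k2_meas : Measurable k2 := by unfold k2; fun_prop

theorem k2_lint : ∫⁻ u, k2 u = ENNReal.ofReal (∫ u : ℝ, ((1 + |u|) ^ 2)⁻¹) :=
  (ofReal_integral_eq_lintegral_ofReal integrable_wt (Filter.Eventually.of_forall fun u => by positivity)).symm

theorem k2_shift (a : ℝ) : ∫⁻ y, k2 (a - y) = ∫⁻ u, k2 u := lintegral_sub_left_eq_self k2 a

/-- Cauchy-Schwarz with a kernel -/
theorem cs1 {f k : ℝ → ℝ≥0∞} (hf : Measurable f) (hk : Measurable k) :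
    (∫⁻ y, f y * k y) ^ 2 ≤ (∫⁻ y, f y ^ 2 * k y) * ∫⁻ y, k y := by
  have hm : Measurable (fun y => k y ^ (1/2 : ℝ)) := by fun_prop
  have h := ENNReal.lintegral_mul_le_Lp_mul_Lq (μ := (volume : Measure ℝ)) (p := 2) (q := 2) (by constructor <;> norm_num)
    (f := fun y => f y * k y ^ (1/2 : ℝ)) (g := fun y => k y ^ (1/2 : ℝ)) (hf.mul hm).aemeasurable hm.aemeasurable
  have e1 : ∀ y, ((fun y => f y * k y ^ (1/2 : ℝ)) * fun y => k y ^ (1/2 : ℝ)) y = f y * k y := by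
    intro y
    simp only [Pi.mul_apply]
    rw [mul_assoc, ← ENNReal.rpow_add_of_nonneg _ _ (by norm_num) (by norm_num)]
    norm_num
  simp_rw [e1] at h
  have e2 : ∀ y, (f y * k y ^ (1/2 : ℝ)) ^ (2:ℝ) = f y ^ 2 * k y := by
    intro y
    rw [ENNReal.mul_rpow_of_nonneg _ _ (by norm_num), ← ENNReal.rpow_mul]
    norm_num
  have e3 : ∀ y, (k y ^ (1/2 : ℝ)) ^ (2:ℝ) = k y := by
    intro y
    rw [← ENNReal.rpow_mul]
    norm_num
  simp_rw [e2, e3] at h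
  calc (∫⁻ y, f y * k y) ^ 2 ≤ ((∫⁻ y, f y ^ 2 * k y) ^ (1 / 2 : ℝ) * (∫⁻ y, k y) ^ (1 / 2 : ℝ)) ^ 2 := by gcongr
    _ = _ := by
      rw [mul_pow, ← ENNReal.rpow_natCast, ← ENNReal.rpow_mul, ← ENNReal.rpow_natCast, ← ENNReal.rpow_mul]
      norm_num

/-- lattice sum -/
theorem lat2 {ι : Type*} (A : Finset ι) (x : ι → E 2) (hx : ∀ i ∈ A, ∀ j ∈ A, (∀ k, ⌊x i k⌋ = ⌊x j k⌋) → i = j) (a b : ℝ) :
    ∑ i ∈ A, k2 (x i 0 - a) * k2 (x i 1 - b) ≤ ENNReal.ofReal ((∑' m, w1 m) ^ 2) := by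
  set f : ι → ℤ × ℤ := fun i => (⌊x i 0⌋ - ⌊a⌋, ⌊x i 1⌋ - ⌊b⌋) with hf
  have hinj : Set.InjOn f A := by
    intro i hi j hj h
    rw [hf] at h
    simp only [Prod.mk.injEq] at h
    refine hx i hi j hj fun k => ?_
    fin_cases k
    · have := h.1; simp only [Fin.zero_eta, Fin.isValue]; omega
    · have := h.2; simp only [Fin.mk_one, Fin.isValue]; omega
  have h0 : ∑ i ∈ A, k2 (x i 0 - a) * k2 (x i 1 - b) =
      ENNReal.ofReal (∑ i ∈ A, ((1 + |x i 0 - a|) ^ 2)⁻¹ * ((1 + |x i 1 - b|) ^ 2)⁻¹) := by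
    rw [ENNReal.ofReal_sum_of_nonneg fun i _ => by positivity]
    refine Finset.sum_congr rfl fun i _ => ?_
    unfold k2
    rw [ENNReal.ofReal_mul (by positivity)]
  rw [h0]
  refine ENNReal.ofReal_le_ofReal ?_
  calc ∑ i ∈ A, ((1 + |x i 0 - a|) ^ 2)⁻¹ * ((1 + |x i 1 - b|) ^ 2)⁻¹ ≤ ∑ i ∈ A, w1 (f i).1 * w1 (f i).2 := by
        refine Finset.sum_le_sum fun i _ => ?_
        exact mul_le_mul (w1_le (x i 0) a) (w1_le (x i 1) b) (by positivity) (w1_nonneg _)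
    _ = ∑ p ∈ A.image f, w1 p.1 * w1 p.2 := by rw [Finset.sum_image hinj]
    _ ≤ ∑ p ∈ ((A.image f).image Prod.fst) ×ˢ ((A.image f).image Prod.snd), w1 p.1 * w1 p.2 := by
        refine Finset.sum_le_sum_of_subset_of_nonneg ?_ fun p _ _ => mul_nonneg (w1_nonneg _) (w1_nonneg _)
        intro p hp
        rw [Finset.mem_product]
        exact ⟨Finset.mem_image_of_mem _ hp, Finset.mem_image_of_mem _ hp⟩
    _ = (∑ m ∈ (A.image f).image Prod.fst, w1 m) * ∑ m ∈ (A.image f).image Prod.snd, w1 m := by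
        rw [Finset.sum_product, Finset.sum_mul_sum]
    _ ≤ (∑' m, w1 m) * (∑' m, w1 m) := by
        refine mul_le_mul (w1_summable.sum_le_tsum _ fun m _ => w1_nonneg m)
          (w1_summable.sum_le_tsum _ fun m _ => w1_nonneg m) (Finset.sum_nonneg fun m _ => w1_nonneg m)
          (tsum_nonneg w1_nonneg)
    _ = _ := by ring

/-- Cauchy-Schwarz, packaged -/
theorem cs2 {c a : ℝ} (hc : 0 ≤ c) {f : ℝ → ℂ} (hf : Measurable f) {Z : ℝ≥0∞}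
    (hZ : Z ≤ ∫⁻ y, (ENNReal.ofReal c * ‖f y‖ₑ) * k2 (a - y)) :
    Z ^ 2 ≤ ENNReal.ofReal (c ^ 2 * ∫ u : ℝ, ((1 + |u|) ^ 2)⁻¹) * ∫⁻ y, ‖f y‖ₑ ^ 2 * k2 (a - y) := by
  have h6 := cs1 (f := fun y => ENNReal.ofReal c * ‖f y‖ₑ) (k := fun y => k2 (a - y))
    (hf.enorm.const_mul _) (k2_meas.comp (measurable_const.sub measurable_id))
  rw [k2_shift, k2_lint] at h6
  have e1 : ∫⁻ y, (ENNReal.ofReal c * ‖f y‖ₑ) ^ 2 * k2 (a - y) =
      (ENNReal.ofReal c) ^ 2 * ∫⁻ y, ‖f y‖ₑ ^ 2 * k2 (a - y) := by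
    rw [← lintegral_const_mul' _ _ (ENNReal.pow_ne_top ENNReal.ofReal_ne_top)]
    refine lintegral_congr fun y => ?_
    ring
  rw [e1] at h6
  refine (pow_le_pow_left' hZ 2).trans (h6.trans (le_of_eq ?_))
  rw [ENNReal.ofReal_mul (p := c ^ 2) (by positivity), ENNReal.ofReal_pow hc]
  ring

/-! ### the kernel off the window -/

theorem Kn_off (N : ℕ) : ∃ C : ℝ, 0 ≤ C ∧ ∀ w T R t y : ℝ, 0 < w → 1 ≤ T → 0 ≤ R → |t| ≤ R → T ≤ |y| →
    ‖Kn w t y‖ ≤ C * w * ((1 + w ^ 2 * R) / (w * T)) ^ (N + 2) * T ^ 2 * ((1 + |y|) ^ 2)⁻¹ := by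
  obtain ⟨C, hC, h⟩ := Kn_le (N + 2)
  refine ⟨4 * C, by positivity, fun w T R t y hw hT hR ht hy => ?_⟩
  have hT0 : 0 < T := by linarith
  have hy0 : 1 ≤ |y| := hT.trans hy
  set ρ := (1 + w ^ 2 * R) / (w * T) with hρ
  have hρ0 : 0 < ρ := by positivity
  have h1 : (|y| / T) / ρ ≤ 1 + w * |y| / (1 + w ^ 2 * |t|) := by
    have e : (|y| / T) / ρ = w * |y| / (1 + w ^ 2 * R) := by
      rw [hρ]; field_simp
    rw [e]
    have : w * |y| / (1 + w ^ 2 * R) ≤ w * |y| / (1 + w ^ 2 * |t|) := by gcongr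
    linarith
  have h2 : ((1 + |y|) / (2 * T)) ^ 2 / ρ ^ (N + 2) ≤ (1 + w * |y| / (1 + w ^ 2 * |t|)) ^ (N + 2) := by
    calc ((1 + |y|) / (2 * T)) ^ 2 / ρ ^ (N + 2) ≤ (|y| / T) ^ 2 / ρ ^ (N + 2) := by
          gcongr ?_ ^ 2 / _
          rw [div_le_div_iff₀ (by positivity) hT0]
          nlinarith
      _ ≤ (|y| / T) ^ (N + 2) / ρ ^ (N + 2) := by
          gcongr ?_ / _
          exact pow_le_pow_right₀ ((one_le_div hT0).2 hy) (by omega)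
      _ = ((|y| / T) / ρ) ^ (N + 2) := (div_pow _ _ _).symm
      _ ≤ _ := by gcongr
  calc ‖Kn w t y‖ ≤ C * w * ((1 + w * |y| / (1 + w ^ 2 * |t|)) ^ (N + 2))⁻¹ := h w t y hw
    _ ≤ C * w * (((1 + |y|) / (2 * T)) ^ 2 / ρ ^ (N + 2))⁻¹ := by gcongr
    _ = 4 * C * w * ρ ^ (N + 2) * T ^ 2 * ((1 + |y|) ^ 2)⁻¹ := by
      field_simp
      ring

/-! ### local constancy in `x` -/

theorem loc1 : ∃ C : ℝ, 0 ≤ C ∧ ∀ (h : ℝ → ℂ), Integrable h → (∀ ξ, h ξ ≠ 0 → |ξ| ≤ 1) → ∀ x t m : ℝ, |t - m| ≤ 1 →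
    ‖∫ ξ, h ξ * ex (x * ξ - t * ξ ^ 2)‖ₑ ^ 2 ≤
      ENNReal.ofReal C * ∫⁻ x', ‖∫ ξ, h ξ * ex (x' * ξ - m * ξ ^ 2)‖ₑ ^ 2 * k2 (x - x') := by
  obtain ⟨C, hC, hK⟩ := Kn_le 2
  set I0 : ℝ := ∫ u : ℝ, ((1 + |u|) ^ 2)⁻¹ with hI0
  have hI00 : 0 ≤ I0 := integral_nonneg fun u => by positivity
  refine ⟨(4 * C) ^ 2 * I0, by positivity, fun h hh hs x t m htm => ?_⟩
  have hA : Integrable (fun ξ => h ξ * ex (-(m * ξ ^ 2))) :=
    hh.mul_bdd (c := 1) (Measurable.aestronglyMeasurable (X.measurable_ex.comp (by fun_prop)))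
      (Filter.Eventually.of_forall fun ξ => by rw [X.norm_ex])
  have hrep := kernel_rep hA measurable_id (w := 1) one_pos (fun ξ hξ => hs ξ fun h0 => hξ (by rw [h0, zero_mul]))
    (t - m) x
  simp only [id] at hrep
  set g : ℝ → ℂ := fun x' => ∫ ξ, h ξ * ex (x' * ξ - m * ξ ^ 2) with hg
  have e1 : ∫ ξ, h ξ * ex (x * ξ - t * ξ ^ 2) = ∫ x', Kn 1 (t - m) (x - x') * g x' := by
    have a1 : ∫ ξ, h ξ * ex (x * ξ - t * ξ ^ 2) = ∫ ξ, h ξ * ex (-(m * ξ ^ 2)) * ex (x * ξ - (t - m) * ξ ^ 2) := by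
      congr 1; ext ξ
      rw [mul_assoc, ← X.ex_add]
      congr 2; ring
    rw [a1, hrep]
    congr 1; ext x'
    rw [hg]
    simp only
    congr 2; ext ξ
    rw [mul_assoc, ← X.ex_add]
    congr 2; ring
  have hgm : Measurable g := by
    have hc : Continuous g := by
      rw [hg]
      refine continuous_of_dominated (bound := fun ξ => ‖h ξ‖) ?_ ?_ hh.norm ?_
      · intro x'
        exact hh.aestronglyMeasurable.mul (Measurable.aestronglyMeasurable (X.measurable_ex.comp (by fun_prop)))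
      · intro x'
        exact Filter.Eventually.of_forall fun ξ => by rw [norm_mul, X.norm_ex, mul_one]
      · refine Filter.Eventually.of_forall fun ξ => ?_
        exact continuous_const.mul (X.continuous_ex.comp (by fun_prop))
    exact hc.measurable
  rw [e1]
  have h3 : ‖∫ x', Kn 1 (t - m) (x - x') * g x'‖ₑ ≤ ∫⁻ x', (ENNReal.ofReal (4 * C) * ‖g x'‖ₑ) * k2 (x - x') := by
    refine (enorm_integral_le_lintegral_enorm _).trans (lintegral_mono fun x' => ?_)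
    rw [enorm_mul]
    have h4 : ‖Kn 1 (t - m) (x - x')‖ₑ ≤ ENNReal.ofReal (4 * C) * k2 (x - x') := by
      unfold k2
      rw [← ofReal_norm, ← ENNReal.ofReal_mul (by positivity)]
      refine ENNReal.ofReal_le_ofReal ?_
      refine (hK 1 (t - m) (x - x') one_pos).trans ?_
      rw [one_pow, one_mul, one_mul, mul_one]
      have hu := abs_nonneg (x - x')
      have ht0 := abs_nonneg (t - m)
      have h5 : (1 + |x - x'|) / 2 ≤ 1 + |x - x'| / (1 + |t - m|) := by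
        have : |x - x'| / 2 ≤ |x - x'| / (1 + |t - m|) := by gcongr; linarith
        linarith
      calc C * ((1 + |x - x'| / (1 + |t - m|)) ^ 2)⁻¹ ≤ C * (((1 + |x - x'|) / 2) ^ 2)⁻¹ := by gcongr
        _ = 4 * C * ((1 + |x - x'|) ^ 2)⁻¹ := by field_simp; ring
    calc ‖Kn 1 (t - m) (x - x')‖ₑ * ‖g x'‖ₑ ≤ (ENNReal.ofReal (4 * C) * k2 (x - x')) * ‖g x'‖ₑ := by gcongr
      _ = _ := by ring
  exact cs2 (by positivity) hgm h3

/-! ### the windows -/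

/-- the enlarged window -/
def Wd (T : ℝ) (n : ℤ) : Set ℝ := Ico (((n : ℝ) - 1) * T) (((n : ℝ) + 2) * T)

theorem Wd_meas (T : ℝ) (n : ℤ) : MeasurableSet (Wd T n) := measurableSet_Ico

theorem Wd_vol (T : ℝ) (n : ℤ) : volume (Wd T n) ≠ ⊤ := by
  unfold Wd
  rw [Real.volume_Ico]
  exact ENNReal.ofReal_ne_top

theorem Wd_far {T : ℝ} {n : ℤ} {y y' : ℝ} (h1 : n * T ≤ y) (h2 : y < (n + 1) * T) (h : y' ∉ Wd T n) : T ≤ |y - y'| := by
  unfold Wd at h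
  rw [mem_Ico, not_and_or, not_le, not_lt] at h
  rcases h with h | h
  · have := le_abs_self (y - y')
    linarith
  · have := neg_le_abs (y - y')
    linarith

theorem vv_meas {w : ℝ} {G : E 2 → ℂ} (hG : Str w G) (t : ℝ) : Measurable fun q : ℝ × ℝ => vv G q.1 q.2 t := by
  have h : Measurable (Function.uncurry fun (q : ℝ × ℝ) (ξ : ℝ) => Fp G ξ q.2 * ex (q.1 * ξ - t * ξ ^ 2)) :=
    ((Fp_meas hG).comp (measurable_snd.prodMk (measurable_snd.comp measurable_fst))).mul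
      (X.measurable_ex.comp (by fun_prop))
  have e : (fun q : ℝ × ℝ => vv G q.1 q.2 t) = fun q => ∫ ξ, Fp G ξ q.2 * ex (q.1 * ξ - t * ξ ^ 2) := by
    ext q; exact Fp_int_prod hG _ _ _
  rw [e]
  exact h.stronglyMeasurable.integral_prod_right'.measurable

theorem Fp_slice_int {w : ℝ} {G : E 2 → ℂ} (hG : Str w G) (y : ℝ) : Integrable fun ξ => Fp G ξ y := by
  obtain ⟨b, hb0, hb⟩ := G_bound hG
  have h1 : Integrable (fun ξ : ℝ => (Icc (-1 : ℝ) 1).indicator (fun _ => b * (2 * |w|)) ξ) :=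
    (integrable_indicator_iff measurableSet_Icc).2 (integrableOn_const (by simp))
  refine h1.mono' ((Fp_meas hG).comp (measurable_id.prodMk measurable_const)).aestronglyMeasurable
    (Filter.Eventually.of_forall fun ξ => ?_)
  by_cases hq : |ξ| ≤ 1
  · rw [indicator_of_mem (show ξ ∈ Icc (-1 : ℝ) 1 from abs_le.1 hq)]
    exact Fp_le hG hb0 hb _ _
  · rw [Fp_zero hG (not_le.1 hq), norm_zero]
    exact indicator_nonneg (fun _ _ => by positivity) _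

/-- conservation of mass in `x`, at fixed `y` -/
theorem vv_planch {w : ℝ} {G : E 2 → ℂ} (hG : Str w G) (y m : ℝ) :
    ∫⁻ x', ‖vv G x' y m‖ₑ ^ 2 = ∫⁻ ξ, ‖Fp G ξ y‖ₑ ^ 2 := by
  obtain ⟨b, hb0, hb⟩ := G_bound hG
  have hi : Integrable (fun ξ => Fp G ξ y * ex (-(m * ξ ^ 2))) :=
    (Fp_slice_int hG y).mul_bdd (c := 1) (Measurable.aestronglyMeasurable (X.measurable_ex.comp (by fun_prop)))
      (Filter.Eventually.of_forall fun ξ => by rw [X.norm_ex])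
  have hb' : ∀ ξ, ‖Fp G ξ y * ex (-(m * ξ ^ 2))‖ ≤ b * (2 * |w|) := fun ξ => by
    rw [norm_mul, X.norm_ex, mul_one]; exact Fp_le hG hb0 hb _ _
  have h := planch_ex _ hi (memLp_two_of_bdd' hi hb')
  have e1 : ∀ x', vv G x' y m = ∫ ξ, Fp G ξ y * ex (-(m * ξ ^ 2)) * ex (x' * ξ) := by
    intro x'
    rw [Fp_int_prod hG]
    congr 1; ext ξ
    rw [mul_assoc, ← X.ex_add]
    congr 2; ring
  simp_rw [e1]
  rw [h]
  refine lintegral_congr fun ξ => ?_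
  rw [enorm_mul, ← ofReal_norm (ex _), X.norm_ex, ENNReal.ofReal_one, mul_one]

theorem G_sq {w : ℝ} {G : E 2 → ℂ} (hG : Str w G) : ∫⁻ η, ‖G η‖ₑ ^ 2 = ENNReal.ofReal (∫ η, ‖G η‖ ^ 2) := by
  obtain ⟨b, hb0, hb⟩ := G_bound hG
  have hi : Integrable (fun p : ℝ × ℝ => ‖G (Je p)‖ ^ 2) := by
    refine ((G_int hG).norm.const_mul b).mono' ((G_comp_meas hG).norm.pow_const 2).aestronglyMeasurable
      (Filter.Eventually.of_forall fun p => ?_)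
    rw [Real.norm_eq_abs, abs_of_nonneg (by positivity), sq]
    exact mul_le_mul_of_nonneg_right (hb _) (norm_nonneg _)
  rw [lintegral_Je, integral_JeR, ofReal_integral_eq_lintegral_ofReal hi (Filter.Eventually.of_forall fun p => by positivity)]
  refine lintegral_congr fun p => ?_
  rw [ENNReal.ofReal_pow (norm_nonneg _), ofReal_norm]

/-! ### one point -/

theorem err_int {w κ t b : ℝ} {Q : Set ℝ} {v : ℝ → ℂ} (hQ : MeasurableSet Q) (hκ : 0 ≤ κ) (hv : Measurable v)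
    (hK : ∀ y ∈ Qᶜ, ‖Kn w t (b - y)‖ ≤ κ * ((1 + |b - y|) ^ 2)⁻¹) (Z : ℂ) (hZ : Z = ∫ y in Qᶜ, Kn w t (b - y) * v y) :
      ‖Z‖ₑ ^ 2 ≤ ENNReal.ofReal (κ ^ 2 * ∫ u : ℝ, ((1 + |u|) ^ 2)⁻¹) * ∫⁻ y, ‖v y‖ₑ ^ 2 * k2 (b - y) := by
  refine cs2 hκ hv ?_
  rw [hZ]
  refine (enorm_integral_le_lintegral_enorm _).trans ?_
  have h1 : ∫⁻ y in Qᶜ, ‖Kn w t (b - y) * v y‖ₑ ≤ ∫⁻ y in Qᶜ, (ENNReal.ofReal κ * ‖v y‖ₑ) * k2 (b - y) := by
    refine setLIntegral_mono' hQ.compl fun y hy => ?_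
    rw [enorm_mul]
    have h4 : ‖Kn w t (b - y)‖ₑ ≤ ENNReal.ofReal κ * k2 (b - y) := by
      unfold k2
      rw [← ofReal_norm, ← ENNReal.ofReal_mul hκ]
      exact ENNReal.ofReal_le_ofReal (hK y hy)
    calc ‖Kn w t (b - y)‖ₑ * ‖v y‖ₑ ≤ (ENNReal.ofReal κ * k2 (b - y)) * ‖v y‖ₑ :=
          mul_le_mul_left h4 _
      _ = _ := by ring
  exact h1.trans (setLIntegral_le_lintegral _ _)

theorem err_gen {w T κ t : ℝ} {G : E 2 → ℂ} {z : E 2} {n : ℤ} (hw : 0 < w) (hκ : 0 ≤ κ) (hG : Str w G)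
    (hK : ∀ y ∈ (Wd T n)ᶜ, ‖Kn w t (z 1 - y)‖ ≤ κ * ((1 + |z 1 - y|) ^ 2)⁻¹) :
      ‖evo G z t 0 - evo (cut w (Wd T n) G) z t 0‖ₑ ^ 2 ≤
        ENNReal.ofReal (κ ^ 2 * ∫ u : ℝ, ((1 + |u|) ^ 2)⁻¹) * ∫⁻ y, ‖vv G (z 0) y t‖ₑ ^ 2 * k2 (z 1 - y) := by
  have h0 := evo_sub_cut hw hG (Wd_meas T n) (Wd_vol T n) z t
  have hm := vv_meas hG t
  generalize z 0 = a at *
  generalize z 1 = b at *
  have hpr : Measurable fun y : ℝ => ((a, y) : ℝ × ℝ) := measurable_const.prodMk measurable_id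
  exact err_int (Wd_meas T n) hκ (hm.comp hpr) hK _ h0

theorem err_one (N : ℕ) : ∃ C : ℝ, 0 ≤ C ∧ ∀ (w T R : ℝ) (G : E 2 → ℂ) (z : E 2) (t : ℝ) (n : ℤ), 0 < w → 1 ≤ T → 0 ≤ R →
    |t| ≤ R → Str w G → n * T ≤ z 1 → z 1 < (n + 1) * T →
      ‖evo G z t 0 - evo (cut w (Wd T n) G) z t 0‖ₑ ^ 2 ≤
        ENNReal.ofReal (C * (w * ((1 + w ^ 2 * R) / (w * T)) ^ (N + 2) * T ^ 2) ^ 2) *
          ∫⁻ y, ‖vv G (z 0) y t‖ₑ ^ 2 * k2 (z 1 - y) := by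
  obtain ⟨C, hC, hK⟩ := Kn_off N
  have hI00 : 0 ≤ ∫ u : ℝ, ((1 + |u|) ^ 2)⁻¹ := integral_nonneg fun u => by positivity
  refine ⟨C ^ 2 * ∫ u : ℝ, ((1 + |u|) ^ 2)⁻¹, by positivity, fun w T R G z t n hw hT hR ht hG h1 h2 => ?_⟩
  have hT0 : 0 < T := by linarith
  have hκ0 : 0 ≤ w * ((1 + w ^ 2 * R) / (w * T)) ^ (N + 2) * T ^ 2 := by positivity
  generalize hκ : w * ((1 + w ^ 2 * R) / (w * T)) ^ (N + 2) * T ^ 2 = κ at hκ0
  have h7 := err_gen (n := n) (T := T) (t := t) (z := z) hw (mul_nonneg hC hκ0) hG (fun y hy => by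
    refine (hK w T R t (z 1 - y) hw hT hR ht (Wd_far h1 h2 hy)).trans (le_of_eq ?_)
    rw [← hκ]; ring)
  rwa [mul_pow, mul_right_comm] at h7

/-! ### all points -/

theorem sum_lint2 {ι : Type*} (A : Finset ι) (f : ι → ℝ → ℝ → ℝ≥0∞) (hf : ∀ i ∈ A, Measurable (Function.uncurry (f i))) :
    ∑ i ∈ A, ∫⁻ y, ∫⁻ x, f i y x = ∫⁻ y, ∫⁻ x, ∑ i ∈ A, f i y x := by
  have h1 : ∀ i ∈ A, Measurable fun y => ∫⁻ x, f i y x := fun i hi => (hf i hi).lintegral_prod_right'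
  rw [← lintegral_finsetSum' A (fun i hi => (h1 i hi).aemeasurable)]
  refine lintegral_congr fun y => ?_
  exact (lintegral_finsetSum' A (fun i hi => ((hf i hi).comp (measurable_const.prodMk measurable_id) :
    Measurable fun x => f i y x).aemeasurable)).symm

theorem slab_sum : ∃ C : ℝ, 0 ≤ C ∧ ∀ (w : ℝ) (G : E 2 → ℂ) (A : Finset Ix) (x : Ix → E 2) (t : Ix → ℝ) (m : ℝ), Str w G →
    (∀ i ∈ A, |t i - m| ≤ 1) → (∀ i ∈ A, ∀ j ∈ A, (∀ k, ⌊x i k⌋ = ⌊x j k⌋) → i = j) →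
      ∑ i ∈ A, ∫⁻ y, ‖vv G (x i 0) y (t i)‖ₑ ^ 2 * k2 (x i 1 - y) ≤ ENNReal.ofReal (C * ∫ η, ‖G η‖ ^ 2) := by
  obtain ⟨C, hC, hL⟩ := loc1
  refine ⟨C * (∑' m, w1 m) ^ 2, by positivity, fun w G A x t m hG ht hx => ?_⟩
  have hvm := vv_meas hG m
  have h1 : ∀ i ∈ A, ∫⁻ y, ‖vv G (x i 0) y (t i)‖ₑ ^ 2 * k2 (x i 1 - y) ≤
      ENNReal.ofReal C * ∫⁻ y, ∫⁻ x', ‖vv G x' y m‖ₑ ^ 2 * (k2 (x i 0 - x') * k2 (x i 1 - y)) := by
    intro i hi
    rw [← lintegral_const_mul' _ _ ENNReal.ofReal_ne_top]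
    refine lintegral_mono fun y => ?_
    have h2 := hL (fun ξ => Fp G ξ y) (Fp_slice_int hG y) (fun ξ hξ => by
      by_contra h0
      exact hξ (Fp_zero hG (not_le.1 h0) y)) (x i 0) (t i) m (ht i hi)
    simp_rw [← Fp_int_prod hG] at h2
    calc ‖vv G (x i 0) y (t i)‖ₑ ^ 2 * k2 (x i 1 - y)
        ≤ (ENNReal.ofReal C * ∫⁻ x', ‖vv G x' y m‖ₑ ^ 2 * k2 (x i 0 - x')) * k2 (x i 1 - y) := by gcongr
      _ = ENNReal.ofReal C * ∫⁻ x', ‖vv G x' y m‖ₑ ^ 2 * (k2 (x i 0 - x') * k2 (x i 1 - y)) := by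
        rw [mul_assoc, ← lintegral_mul_const' _ _ (by unfold k2; exact ENNReal.ofReal_ne_top)]
        congr 1
        refine lintegral_congr fun x' => ?_
        ring
  calc _ ≤ ∑ i ∈ A, ENNReal.ofReal C * ∫⁻ y, ∫⁻ x', ‖vv G x' y m‖ₑ ^ 2 * (k2 (x i 0 - x') * k2 (x i 1 - y)) :=
        Finset.sum_le_sum h1
    _ = ENNReal.ofReal C * ∫⁻ y, ∫⁻ x', ‖vv G x' y m‖ₑ ^ 2 * ∑ i ∈ A, (k2 (x i 0 - x') * k2 (x i 1 - y)) := by
        have hm : ∀ i ∈ A, Measurable (Function.uncurry fun y x' : ℝ =>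
            ‖vv G x' y m‖ₑ ^ 2 * (k2 (x i 0 - x') * k2 (x i 1 - y))) := by
          intro i _
          have a1 : Measurable fun q : ℝ × ℝ => ‖vv G q.2 q.1 m‖ₑ ^ 2 := (hvm.comp measurable_swap).enorm.pow_const 2
          have a2 : Measurable fun q : ℝ × ℝ => k2 (x i 0 - q.2) := k2_meas.comp (measurable_const.sub measurable_snd)
          have a3 : Measurable fun q : ℝ × ℝ => k2 (x i 1 - q.1) := k2_meas.comp (measurable_const.sub measurable_fst)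
          exact a1.mul (a2.mul a3)
        rw [← Finset.mul_sum, sum_lint2 A _ hm]
        congr 1
        refine lintegral_congr fun y => lintegral_congr fun x' => ?_
        rw [Finset.mul_sum]
    _ ≤ ENNReal.ofReal C * ∫⁻ y, ∫⁻ x', ‖vv G x' y m‖ₑ ^ 2 * ENNReal.ofReal ((∑' m, w1 m) ^ 2) := by
        gcongr with y x'
        exact lat2 A x hx x' y
    _ = ENNReal.ofReal (C * (∑' m, w1 m) ^ 2 * ∫ η, ‖G η‖ ^ 2) := by
        have hG0 : 0 ≤ ∫ η, ‖G η‖ ^ 2 := integral_nonneg fun η => by positivity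
        simp_rw [lintegral_mul_const' _ _ (ENNReal.ofReal_ne_top (r := (∑' m, w1 m) ^ 2)), vv_planch hG]
        rw [Fp_mass hG, G_sq hG, ← ENNReal.ofReal_mul hG0, ← ENNReal.ofReal_mul hC]
        congr 1
        ring

end Vale.Agent.P076.H551
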