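import Vale.Agent.P076.H551.YD

/-! # P076 / H551 : [YLOC] all points, all windows -/

set_option autoImplicit false

open MeasureTheory Complex Set
open scoped FourierTransform ENNReal

namespace Vale.Agent.P076.H551

open Vale.Agent.P076 Vale.Agent.P076.H819 Vale.Agent.P076.X Vale.Agent.P076.H23 Vale.Agent.P076.H780

theorem pts_sum : ∃ C : ℝ, 0 ≤ C ∧ ∀ (w R : ℝ) (G : E 2 → ℂ) (A : Finset Ix) (x : Ix → E 2) (t : Ix → ℝ), 1 ≤ R → Str w G →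
    (∀ i ∈ A, 0 ≤ t i) → (∀ i ∈ A, t i ≤ R) → (∀ i ∈ A, ∀ j ∈ A, (∀ k, ⌊x i k⌋ = ⌊x j k⌋) → ⌊t i⌋ = ⌊t j⌋ → i = j) →
      ∑ i ∈ A, ∫⁻ y, ‖vv G (x i 0) y (t i)‖ₑ ^ 2 * k2 (x i 1 - y) ≤ ENNReal.ofReal (C * R * ∫ η, ‖G η‖ ^ 2) := by
  obtain ⟨C, hC, K⟩ := slab_sum
  refine ⟨2 * C, by positivity, fun w R G A x t hR hG h0 h1 hx => ?_⟩
  have hmaps : ∀ i ∈ A, ⌊t i⌋ ∈ Finset.Icc (0 : ℤ) ⌊R⌋ := by
    intro i hi
    rw [Finset.mem_Icc]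
    exact ⟨Int.floor_nonneg.2 (h0 i hi), Int.floor_le_floor (h1 i hi)⟩
  have hG0 : 0 ≤ ∫ η, ‖G η‖ ^ 2 := integral_nonneg fun η => by positivity
  rw [← Finset.sum_fiberwise_of_maps_to hmaps]
  have hfl : 0 ≤ ⌊R⌋ + 1 := by have := Int.floor_nonneg.2 (by linarith : (0 : ℝ) ≤ R); omega
  calc ∑ n ∈ Finset.Icc (0 : ℤ) ⌊R⌋, ∑ i ∈ A with ⌊t i⌋ = n, ∫⁻ y, ‖vv G (x i 0) y (t i)‖ₑ ^ 2 * k2 (x i 1 - y)
      ≤ ∑ n ∈ Finset.Icc (0 : ℤ) ⌊R⌋, ENNReal.ofReal (C * ∫ η, ‖G η‖ ^ 2) := by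
        refine Finset.sum_le_sum fun n _ => ?_
        refine K w G _ x t n hG ?_ ?_
        · intro i hi
          rw [Finset.mem_filter] at hi
          rw [← hi.2, abs_le]
          have a1 := Int.floor_le (t i)
          have a2 := Int.lt_floor_add_one (t i)
          constructor <;> linarith
        · intro i hi j hj hk
          rw [Finset.mem_filter] at hi hj
          exact hx i hi.1 j hj.1 hk (by rw [hi.2, hj.2])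
    _ = ENNReal.ofReal (((⌊R⌋ + 1 : ℤ).toNat : ℝ) * (C * ∫ η, ‖G η‖ ^ 2)) := by
        rw [Finset.sum_const, nsmul_eq_mul, Int.card_Icc, sub_zero, ENNReal.ofReal_mul (Nat.cast_nonneg _),
          ENNReal.ofReal_natCast]
    _ ≤ _ := by
        refine ENNReal.ofReal_le_ofReal ?_
        have e : ((⌊R⌋ + 1 : ℤ).toNat : ℝ) = ((⌊R⌋ + 1 : ℤ) : ℝ) := by
          exact_mod_cast Int.toNat_of_nonneg hfl
        rw [e]
        push_cast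
        have h2 := Int.floor_le R
        have h3 : 0 ≤ C * ∫ η, ‖G η‖ ^ 2 := by positivity
        calc ((⌊R⌋ : ℝ) + 1) * (C * ∫ η, ‖G η‖ ^ 2) ≤ (2 * R) * (C * ∫ η, ‖G η‖ ^ 2) :=
              mul_le_mul_of_nonneg_right (by linarith) h3
          _ = _ := by ring

/-- **sum of the errors** -/
theorem err_sum (N : ℕ) : ∃ C : ℝ, 0 ≤ C ∧ ∀ (w T R : ℝ) (G : E 2 → ℂ) (A : Finset Ix) (x : Ix → E 2) (t : Ix → ℝ)
    (n : Ix → ℤ), 0 < w → 1 ≤ T → 1 ≤ R → Str w G → (∀ i ∈ A, 0 ≤ t i) → (∀ i ∈ A, t i ≤ R) →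
      (∀ i ∈ A, ∀ j ∈ A, (∀ k, ⌊x i k⌋ = ⌊x j k⌋) → ⌊t i⌋ = ⌊t j⌋ → i = j) →
      (∀ i ∈ A, n i * T ≤ x i 1 ∧ x i 1 < (n i + 1) * T) →
      ∑ i ∈ A, ‖evo G (x i) (t i) 0 - evo (cut w (Wd T (n i)) G) (x i) (t i) 0‖ ^ 2 ≤
        C * (w * ((1 + w ^ 2 * R) / (w * T)) ^ (N + 2) * T ^ 2) ^ 2 * R * ∫ η, ‖G η‖ ^ 2 := by
  obtain ⟨C₁, hC₁, K₁⟩ := err_one N
  obtain ⟨C₂, hC₂, K₂⟩ := pts_sum
  refine ⟨C₁ * C₂, by positivity, fun w T R G A x t n hw hT hR hG h0 h1 hx hn => ?_⟩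
  have hG0 : 0 ≤ ∫ η, ‖G η‖ ^ 2 := integral_nonneg fun η => by positivity
  have hT0 : 0 < T := by linarith
  have hκ0 : 0 ≤ w * ((1 + w ^ 2 * R) / (w * T)) ^ (N + 2) * T ^ 2 := by positivity
  have h2 : ∀ i ∈ A, ‖evo G (x i) (t i) 0 - evo (cut w (Wd T (n i)) G) (x i) (t i) 0‖ₑ ^ 2 ≤
      ENNReal.ofReal (C₁ * (w * ((1 + w ^ 2 * R) / (w * T)) ^ (N + 2) * T ^ 2) ^ 2) *
        ∫⁻ y, ‖vv G (x i 0) y (t i)‖ₑ ^ 2 * k2 (x i 1 - y) := fun i hi =>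
    K₁ w T R G (x i) (t i) (n i) hw hT (by linarith) (by rw [abs_of_nonneg (h0 i hi)]; exact h1 i hi) hG (hn i hi).1 (hn i hi).2
  generalize w * ((1 + w ^ 2 * R) / (w * T)) ^ (N + 2) * T ^ 2 = κ at h2 hκ0 ⊢
  have h3 : ENNReal.ofReal (∑ i ∈ A, ‖evo G (x i) (t i) 0 - evo (cut w (Wd T (n i)) G) (x i) (t i) 0‖ ^ 2) ≤
      ENNReal.ofReal (C₁ * C₂ * κ ^ 2 * R * ∫ η, ‖G η‖ ^ 2) := by
    rw [ENNReal.ofReal_sum_of_nonneg fun i _ => by positivity]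
    calc ∑ i ∈ A, ENNReal.ofReal (‖evo G (x i) (t i) 0 - evo (cut w (Wd T (n i)) G) (x i) (t i) 0‖ ^ 2)
        = ∑ i ∈ A, ‖evo G (x i) (t i) 0 - evo (cut w (Wd T (n i)) G) (x i) (t i) 0‖ₑ ^ 2 := by
          refine Finset.sum_congr rfl fun i _ => ?_
          rw [ENNReal.ofReal_pow (norm_nonneg _), ofReal_norm]
      _ ≤ ∑ i ∈ A, ENNReal.ofReal (C₁ * κ ^ 2) * ∫⁻ y, ‖vv G (x i 0) y (t i)‖ₑ ^ 2 * k2 (x i 1 - y) :=
          Finset.sum_le_sum h2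
      _ = ENNReal.ofReal (C₁ * κ ^ 2) * ∑ i ∈ A, ∫⁻ y, ‖vv G (x i 0) y (t i)‖ₑ ^ 2 * k2 (x i 1 - y) := by
          rw [Finset.mul_sum]
      _ ≤ ENNReal.ofReal (C₁ * κ ^ 2) * ENNReal.ofReal (C₂ * R * ∫ η, ‖G η‖ ^ 2) := by
          gcongr
          exact K₂ w R G A x t hR hG h0 h1 hx
      _ = _ := by
          rw [← ENNReal.ofReal_mul (by positivity)]
          congr 1; ring
  exact (ENNReal.ofReal_le_ofReal_iff (by positivity)).1 h3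

/-! ### masses of the windows -/

open Classical in
theorem win_count {T : ℝ} (hT : 0 < T) (S : Finset ℤ) (y : ℝ) : (S.filter fun n => y ∈ Wd T n).card ≤ 3 := by
  have h : (S.filter fun n => y ∈ Wd T n) ⊆ Finset.Icc (⌊y / T⌋ - 1) (⌊y / T⌋ + 1) := by
    intro n hn
    rw [Finset.mem_filter] at hn
    obtain ⟨-, h1, h2⟩ := hn
    rw [Finset.mem_Icc]
    have e1 : (n : ℝ) - 1 ≤ y / T := by rw [le_div_iff₀ hT]; exact h1
    have e2 : y / T < (n : ℝ) + 2 := by rw [div_lt_iff₀ hT]; exact h2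
    have a1 : n - 1 ≤ ⌊y / T⌋ := Int.le_floor.2 (by push_cast; exact e1)
    have a2 : ⌊y / T⌋ < n + 2 := Int.floor_lt.2 (by push_cast; exact e2)
    omega
  refine (Finset.card_le_card h).trans ?_
  rw [Int.card_Icc]
  omega

open Classical in
theorem win_sum {T : ℝ} (hT : 0 < T) (S : Finset ℤ) {f : ℝ → ℝ≥0∞} (hf : Measurable f) :
    ∑ n ∈ S, ∫⁻ y in Wd T n, f y ≤ 3 * ∫⁻ y, f y := by
  have h1 : ∀ n ∈ S, ∫⁻ y in Wd T n, f y = ∫⁻ y, (Wd T n).indicator f y := fun n _ =>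
    (lintegral_indicator (Wd_meas T n) f).symm
  rw [Finset.sum_congr rfl h1, ← lintegral_finsetSum' S (fun n _ => (hf.indicator (Wd_meas T n)).aemeasurable),
    ← lintegral_const_mul _ hf]
  refine lintegral_mono fun y => ?_
  calc ∑ n ∈ S, (Wd T n).indicator f y = ∑ n ∈ S.filter (fun n => y ∈ Wd T n), f y := by
        rw [Finset.sum_filter]
        refine Finset.sum_congr rfl fun n _ => ?_
        by_cases h : y ∈ Wd T n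
        · rw [indicator_of_mem h, if_pos h]
        · rw [indicator_of_notMem h, if_neg h]
    _ = ((S.filter fun n => y ∈ Wd T n).card : ℝ≥0∞) * f y := by rw [Finset.sum_const, nsmul_eq_mul]
    _ ≤ 3 * f y := by
        gcongr
        exact_mod_cast win_count hT S y

theorem mass_sum {w T : ℝ} (hw : 0 < w) (hT : 0 < T) {G : E 2 → ℂ} (hG : Str w G) (S : Finset ℤ) :
    ∑ n ∈ S, ∫ η, ‖cut w (Wd T n) G η‖ ^ 2 ≤ 3 * ∫ η, ‖G η‖ ^ 2 := by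
  have hG0 : 0 ≤ ∫ η, ‖G η‖ ^ 2 := integral_nonneg fun η => by positivity
  have hm : Measurable fun y => ∫⁻ ξ, ‖Fp G ξ y‖ₑ ^ 2 := by
    have h1 : Measurable (Function.uncurry fun (y ξ : ℝ) => ‖Fp G ξ y‖ₑ ^ 2) :=
      ((Fp_meas hG).comp measurable_swap).enorm.pow_const 2
    exact h1.lintegral_prod_right'
  have h3 : ENNReal.ofReal (∑ n ∈ S, ∫ η, ‖cut w (Wd T n) G η‖ ^ 2) ≤ ENNReal.ofReal (3 * ∫ η, ‖G η‖ ^ 2) := by
    rw [ENNReal.ofReal_sum_of_nonneg fun n _ => integral_nonneg fun η => by positivity]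
    calc ∑ n ∈ S, ENNReal.ofReal (∫ η, ‖cut w (Wd T n) G η‖ ^ 2)
        = ∑ n ∈ S, ∫⁻ η, ‖cut w (Wd T n) G η‖ₑ ^ 2 :=
          Finset.sum_congr rfl fun n _ => (G_sq (cut_str hw hG (Wd_vol T n))).symm
      _ ≤ ∑ n ∈ S, ∫⁻ y in Wd T n, ∫⁻ ξ, ‖Fp G ξ y‖ₑ ^ 2 :=
          Finset.sum_le_sum fun n _ => cut_mass hG (Wd_meas T n) (Wd_vol T n)
      _ ≤ 3 * ∫⁻ y, ∫⁻ ξ, ‖Fp G ξ y‖ₑ ^ 2 := win_sum hT S hm
      _ = _ := by
          rw [Fp_mass hG, G_sq hG, ENNReal.ofReal_mul (by norm_num), ENNReal.ofReal_ofNat]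
  exact (ENNReal.ofReal_le_ofReal_iff (by positivity)).1 h3

end Vale.Agent.P076.H551
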