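import Vale.Agent.P076.H551.YE
import Vale.Agent.P076.H523.Spec

/-! # P076 / H551 : [YLOC] `StBSL → StBS` -/

set_option autoImplicit false

open MeasureTheory Complex Set
open scoped FourierTransform ENNReal

namespace Vale.Agent.P076.H551

open Vale.Agent.P076 Vale.Agent.P076.H819 Vale.Agent.P076.X Vale.Agent.P076.H23 Vale.Agent.P076.H780 Vale.Agent.P076.H523

theorem Str_mono {w w' : ℝ} (h : w ≤ w') {G : E 2 → ℂ} (hG : Str w G) : Str w' G :=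
  ⟨hG.meas, hG.bdd, hG.s0, fun η hη => (hG.s1 η hη).trans h⟩

theorem Pt_mono {g R : ℝ} {A B : Finset Ix} {x : Ix → E 2} {t : Ix → ℝ} (h : B ⊆ A) (hA : Pt g R A x t) : Pt g R B x t where
  t0 i hi := hA.t0 i (h hi)
  tR i hi := hA.tR i (h hi)
  cell i hi j hj := hA.cell i (h hi) j (h hj)
  dim r y s hr := by
    refine le_trans ?_ (hA.dim r y s hr)
    exact_mod_cast Finset.card_le_card (Finset.filter_subset_filter _ h)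

/-- the size of the kernel off the window -/
theorem kappa_le {c c₂ R : ℝ} {N : ℕ} (hc : 0 < c) (hc2 : 2 * c < c₂) (hc8 : c₂ < 1 / 8) (hN : 7 / c ≤ N) (hR : 1 ≤ R) :
    (R ^ (c - 1 / 2) * ((1 + (R ^ (c - 1 / 2)) ^ 2 * R) / (R ^ (c - 1 / 2) * R ^ (1 / 2 + c₂))) ^ (N + 2) *
      (R ^ (1 / 2 + c₂)) ^ 2) ^ 2 * R ≤ 4 ^ (N + 2) * R ^ (-10 : ℝ) := by
  have hR0 : 0 < R := by linarith
  have e1 : (R ^ (c - 1 / 2)) ^ 2 * R = R ^ (2 * c) := by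
    rw [← Real.rpow_natCast, ← Real.rpow_mul hR0.le]
    nth_rewrite 2 [← Real.rpow_one R]
    rw [← Real.rpow_add hR0]
    congr 1; push_cast; ring
  have e2 : R ^ (c - 1 / 2) * R ^ (1 / 2 + c₂) = R ^ (c + c₂) := by
    rw [← Real.rpow_add hR0]
    congr 1; ring
  rw [e1, e2]
  have h1 : (1 + R ^ (2 * c)) / R ^ (c + c₂) ≤ 2 * R ^ (-c) := by
    rw [div_le_iff₀ (by positivity), mul_assoc, ← Real.rpow_add hR0]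
    have a1 : 1 ≤ R ^ (-c + (c + c₂)) := Real.one_le_rpow hR (by linarith)
    have a2 : R ^ (2 * c) ≤ R ^ (-c + (c + c₂)) := Real.rpow_le_rpow_of_exponent_le hR (by linarith)
    linarith
  have h2 : R ^ (c - 1 / 2) ≤ 1 := Real.rpow_le_one_of_one_le_of_nonpos hR (by linarith)
  have h3 : (R ^ (1 / 2 + c₂)) ^ 2 ≤ R ^ (5 / 4 : ℝ) := by
    rw [← Real.rpow_natCast, ← Real.rpow_mul hR0.le]
    refine Real.rpow_le_rpow_of_exponent_le hR ?_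
    push_cast; linarith
  have h4 : R ^ (c - 1 / 2) * ((1 + R ^ (2 * c)) / R ^ (c + c₂)) ^ (N + 2) * (R ^ (1 / 2 + c₂)) ^ 2 ≤
      1 * (2 * R ^ (-c)) ^ (N + 2) * R ^ (5 / 4 : ℝ) := by
    gcongr
  have h5 : (R ^ (-c)) ^ (N + 2) ≤ R ^ (-7 : ℝ) := by
    rw [← Real.rpow_natCast, ← Real.rpow_mul hR0.le]
    refine Real.rpow_le_rpow_of_exponent_le hR ?_
    push_cast
    have : 7 ≤ N * c := by rwa [div_le_iff₀ hc] at hN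
    nlinarith
  calc _ ≤ (1 * (2 * R ^ (-c)) ^ (N + 2) * R ^ (5 / 4 : ℝ)) ^ 2 * R := by gcongr
    _ = 4 ^ (N + 2) * (((R ^ (-c)) ^ (N + 2)) ^ 2 * ((R ^ (5 / 4 : ℝ)) ^ 2 * R)) := by
        have e4 : (4:ℝ) ^ (N + 2) = (2 ^ (N + 2)) ^ 2 := by
          rw [← pow_mul, mul_comm, pow_mul]; norm_num
        generalize R ^ (5 / 4 : ℝ) = a
        generalize R ^ (-c) = b
        rw [one_mul, mul_pow 2 b, e4]
        ring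
    _ ≤ 4 ^ (N + 2) * ((R ^ (-7 : ℝ)) ^ 2 * ((R ^ (5 / 4 : ℝ)) ^ 2 * R)) := by gcongr
    _ = 4 ^ (N + 2) * R ^ (-(21 / 2) : ℝ) := by
        congr 1
        rw [← Real.rpow_natCast, ← Real.rpow_mul hR0.le, ← Real.rpow_natCast, ← Real.rpow_mul hR0.le]
        nth_rewrite 3 [← Real.rpow_one R]
        rw [← Real.rpow_add hR0, ← Real.rpow_add hR0]
        congr 1; push_cast; norm_num
    _ ≤ 4 ^ (N + 2) * R ^ (-10 : ℝ) :=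
        mul_le_mul_of_nonneg_left (Real.rpow_le_rpow_of_exponent_le hR (by norm_num)) (by positivity)

/-- lower bound of the gain factor -/
theorem gain_low {g R δ : ℝ} {k : ℕ} (hR : 1 ≤ R) (hg : 1 ≤ g) (hgR : g ≤ R ^ (12 / 25 : ℝ)) (hδ : 0 < δ) (hδ1 : δ ≤ 1)
    (hk : 1 ≤ k) : R ^ (-3 : ℝ) ≤ (g * R) ^ (2 / 3 : ℝ) * (min 1 ((k : ℝ) / (g * R ^ 2))) ^ δ := by
  have hR0 : 0 < R := by linarith
  have hg0 : 0 < g := by linarith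
  have h1 : 1 ≤ (g * R) ^ (2 / 3 : ℝ) := Real.one_le_rpow (by nlinarith) (by norm_num)
  have hk' : (1:ℝ) ≤ k := by exact_mod_cast hk
  have hgR' : g ≤ R := by
    refine hgR.trans ?_
    nth_rewrite 2 [← Real.rpow_one R]
    exact Real.rpow_le_rpow_of_exponent_le hR (by norm_num)
  have h2 : R ^ (-3 : ℝ) ≤ min 1 ((k : ℝ) / (g * R ^ 2)) := by
    refine le_min (Real.rpow_le_one_of_one_le_of_nonpos hR (by norm_num)) ?_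
    rw [le_div_iff₀ (by positivity)]
    have e : R ^ (-3 : ℝ) = (R ^ 3)⁻¹ := by
      rw [Real.rpow_neg hR0.le]
      norm_cast
    rw [e, inv_mul_le_iff₀ (by positivity)]
    nlinarith [sq_nonneg R, mul_le_mul_of_nonneg_right hgR' (sq_nonneg R), mul_le_mul_of_nonneg_left hk' (by positivity : 0 ≤ R ^ 3)]
  have h3 : min 1 ((k : ℝ) / (g * R ^ 2)) ≤ (min 1 ((k : ℝ) / (g * R ^ 2))) ^ δ := by
    nth_rewrite 1 [← Real.rpow_one (min 1 ((k : ℝ) / (g * R ^ 2)))]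
    exact Real.rpow_le_rpow_of_exponent_ge (lt_of_lt_of_le (by positivity) h2) (min_le_left _ _) hδ1
  have h4 : 0 ≤ (min 1 ((k : ℝ) / (g * R ^ 2))) ^ δ := by positivity
  calc R ^ (-3 : ℝ) ≤ 1 * (min 1 ((k : ℝ) / (g * R ^ 2))) ^ δ := by rw [one_mul]; exact h2.trans h3
    _ ≤ _ := mul_le_mul_of_nonneg_right h1 h4

/-- small `R` -/
theorem small_R {c : ℝ} (hc : 0 < c) (hc8 : c < 1 / 2) : ∃ C : ℝ, 0 ≤ C ∧ ∀ (R g α δ : ℝ) (G : E 2 → ℂ) (A : Finset Ix)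
    (x : Ix → E 2) (t : Ix → ℝ), 1 ≤ R → R ^ c < 2 → 1 ≤ g → g ≤ R ^ (12 / 25 : ℝ) → 0 < δ → δ ≤ 1 → 0 ≤ α →
      Str (R ^ (c - 1 / 2)) G → Pt g R A x t → (∀ i ∈ A, α ≤ ‖evo G (x i) (t i) 0‖) → 1 ≤ A.card →
      α ^ 2 * A.card ≤ C * (g * R) ^ (2 / 3 : ℝ) * (min 1 ((A.card : ℝ) / (g * R ^ 2))) ^ δ * ∫ η, ‖G η‖ ^ 2 := by
  obtain ⟨C, hC, K⟩ := H780.triv
  set R0 : ℝ := 2 ^ (1 / c) with hR0
  have hR00 : 0 < R0 := by positivity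
  refine ⟨C * R0 * R0 ^ (3 : ℝ), by positivity, ?_⟩
  intro R g α δ G A x t hR hRc hg hgR hδ hδ1 hα hG hA hpt hk
  have hRp : 0 < R := by linarith
  have hRR : R ≤ R0 := by
    have h1 : R = (R ^ c) ^ (1 / c) := by
      rw [← Real.rpow_mul hRp.le, mul_one_div_cancel hc.ne', Real.rpow_one]
    rw [h1, hR0]
    exact Real.rpow_le_rpow (by positivity) hRc.le (by positivity)
  have hG0 : 0 ≤ ∫ η, ‖G η‖ ^ 2 := integral_nonneg fun η => by positivity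
  have h2 := K R G A x t hR hG.meas hG.bdd (fun η hη i => by
    fin_cases i
    · exact hG.s0 η hη
    · exact (hG.s1 η hη).trans (Real.rpow_le_one_of_one_le_of_nonpos hR (by linarith))) hA.t0 hA.tR
    (fun i hi j hj h1 h2 => hA.cell i hi j hj h1 h2)
  have h3 : α ^ 2 * A.card ≤ ∑ i ∈ A, ‖evo G (x i) (t i) 0‖ ^ 2 := by
    rw [mul_comm, ← nsmul_eq_mul]
    refine Finset.card_nsmul_le_sum A _ _ fun i hi => ?_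
    exact pow_le_pow_left₀ hα (hpt i hi) 2
  have h4 := gain_low hR hg hgR hδ hδ1 hk
  have h5 : (1:ℝ) ≤ R0 ^ (3 : ℝ) * R ^ (-3 : ℝ) := by
    rw [Real.rpow_neg hRp.le, ← div_eq_mul_inv, one_le_div (by positivity)]
    exact Real.rpow_le_rpow hRp.le hRR (by norm_num)
  calc α ^ 2 * A.card ≤ C * R * ∫ η, ‖G η‖ ^ 2 := h3.trans h2
    _ ≤ C * R0 * ∫ η, ‖G η‖ ^ 2 := by gcongr
    _ = C * R0 * 1 * ∫ η, ‖G η‖ ^ 2 := by ring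
    _ ≤ C * R0 * (R0 ^ (3 : ℝ) * R ^ (-3 : ℝ)) * ∫ η, ‖G η‖ ^ 2 := by gcongr
    _ ≤ C * R0 * (R0 ^ (3 : ℝ) * ((g * R) ^ (2 / 3 : ℝ) * (min 1 ((A.card : ℝ) / (g * R ^ 2))) ^ δ)) * ∫ η, ‖G η‖ ^ 2 := by
        gcongr
    _ = _ := by ring

/-- the localised estimate with its constants -/
def LocEst (CL c₁ c₂ δ₁ ν : ℝ) : Prop := ∀ (R g α a y₀ : ℝ)
  (G₁ G₂ : E 2 → ℂ) (A : Finset Ix) (x : Ix → E 2) (t : Ix → ℝ), 1 ≤ R → 1 ≤ g → g ≤ R ^ (12 / 25 : ℝ) → 0 ≤ α →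
    Str (R ^ (c₁ - 1 / 2)) G₁ → Str (R ^ (c₁ - 1 / 2)) G₂ →
    (∀ η, G₁ η ≠ 0 → η 0 ≤ a) → (∀ η, G₂ η ≠ 0 → a + ν ≤ η 0) → Pt g R A x t →
    (∀ i ∈ A, |x i 1 - y₀| ≤ R ^ (1 / 2 + c₂)) →
    (∀ i ∈ A, α ≤ ‖evo G₁ (x i) (t i) 0‖ ∧ α ≤ ‖evo G₂ (x i) (t i) 0‖) →
      α ^ 2 * A.card ≤ CL * (g * R) ^ (2 / 3 : ℝ) * (min 1 ((A.card : ℝ) / (g * R ^ 2))) ^ δ₁ *
        ((∫ η, ‖G₁ η‖ ^ 2) + ∫ η, ‖G₂ η‖ ^ 2)

/-- one window -/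
theorem good_one {CL c₁ c₂ δ₁ ν : ℝ} (hCL : LocEst CL c₁ c₂ δ₁ ν) (hδ₁ : 0 < δ₁) {R g α a w : ℝ} {G₁ G₂ : E 2 → ℂ}
    {A Am : Finset Ix} {x : Ix → E 2} {t : Ix → ℝ} {m : ℤ} (hR : 1 ≤ R) (hg : 1 ≤ g) (hgR : g ≤ R ^ (12 / 25 : ℝ))
    (hα : 0 ≤ α) (hw : 0 < w) (h2w : 2 * w ≤ R ^ (c₁ - 1 / 2)) (hG₁ : Str w G₁) (hG₂ : Str w G₂)
    (hs₁ : ∀ η, G₁ η ≠ 0 → η 0 ≤ a) (hs₂ : ∀ η, G₂ η ≠ 0 → a + ν ≤ η 0) (hA : Pt g R A x t) (hAm : Am ⊆ A)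
    (hwin : ∀ i ∈ Am, (m : ℝ) * R ^ (1 / 2 + c₂) ≤ x i 1 ∧ x i 1 < ((m : ℝ) + 1) * R ^ (1 / 2 + c₂))
    (hpt : ∀ i ∈ Am, α ≤ ‖evo (cut w (Wd (R ^ (1 / 2 + c₂)) m) G₁) (x i) (t i) 0‖ ∧
      α ≤ ‖evo (cut w (Wd (R ^ (1 / 2 + c₂)) m) G₂) (x i) (t i) 0‖) :
    α ^ 2 * (Am.card : ℝ) ≤ |CL| * ((g * R) ^ (2 / 3 : ℝ) * (min 1 ((A.card : ℝ) / (g * R ^ 2))) ^ (min δ₁ 1)) *
      ((∫ η, ‖cut w (Wd (R ^ (1 / 2 + c₂)) m) G₁ η‖ ^ 2) + ∫ η, ‖cut w (Wd (R ^ (1 / 2 + c₂)) m) G₂ η‖ ^ 2) := by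
  have hR0 : 0 < R := by linarith
  have hg0 : 0 < g := by linarith
  have hT0 : 0 < R ^ (1 / 2 + c₂) := by positivity
  have hm₁ : 0 ≤ ∫ η, ‖cut w (Wd (R ^ (1 / 2 + c₂)) m) G₁ η‖ ^ 2 := integral_nonneg fun η => by positivity
  have hm₂ : 0 ≤ ∫ η, ‖cut w (Wd (R ^ (1 / 2 + c₂)) m) G₂ η‖ ^ 2 := integral_nonneg fun η => by positivity
  have key := hCL R g α a (((m : ℝ) + 1 / 2) * R ^ (1 / 2 + c₂)) (cut w (Wd (R ^ (1 / 2 + c₂)) m) G₁)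
    (cut w (Wd (R ^ (1 / 2 + c₂)) m) G₂) Am x t hR hg hgR
    hα (Str_mono h2w (cut_str hw hG₁ (Wd_vol _ m))) (Str_mono h2w (cut_str hw hG₂ (Wd_vol _ m)))
    (fun η hη => by
      obtain ⟨ζ, hζ⟩ := cut_ne hη
      have := hs₁ _ hζ
      rwa [Je_zero] at this)
    (fun η hη => by
      obtain ⟨ζ, hζ⟩ := cut_ne hη
      have := hs₂ _ hζ
      rwa [Je_zero] at this)
    (Pt_mono hAm hA)
    (fun i hi => by
      obtain ⟨a1, a2⟩ := hwin i hi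
      rw [abs_le]
      constructor <;> linarith)
    hpt
  generalize (∫ η, ‖cut w (Wd (R ^ (1 / 2 + c₂)) m) G₁ η‖ ^ 2) = m₁ at *
  generalize (∫ η, ‖cut w (Wd (R ^ (1 / 2 + c₂)) m) G₂ η‖ ^ 2) = m₂ at *
  have hCL0 := abs_nonneg CL
  rcases Nat.eq_zero_or_pos Am.card with h0 | hk'
  · rw [h0]
    simp only [Nat.cast_zero, mul_zero]
    positivity
  have hb : (min 1 ((Am.card : ℝ) / (g * R ^ 2))) ^ δ₁ ≤ (min 1 ((A.card : ℝ) / (g * R ^ 2))) ^ (min δ₁ 1) := by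
    have hcard : (Am.card : ℝ) ≤ A.card := by exact_mod_cast Finset.card_le_card hAm
    have hpos : (0:ℝ) < Am.card := by exact_mod_cast hk'
    have c1 : 0 < min 1 ((Am.card : ℝ) / (g * R ^ 2)) := lt_min one_pos (by positivity)
    have c2 : min 1 ((Am.card : ℝ) / (g * R ^ 2)) ≤ min 1 ((A.card : ℝ) / (g * R ^ 2)) :=
      min_le_min le_rfl (by gcongr)
    calc (min 1 ((Am.card : ℝ) / (g * R ^ 2))) ^ δ₁ ≤ (min 1 ((Am.card : ℝ) / (g * R ^ 2))) ^ (min δ₁ 1) :=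
          Real.rpow_le_rpow_of_exponent_ge c1 (min_le_left _ _) (min_le_left _ _)
      _ ≤ _ := Real.rpow_le_rpow c1.le c2 (lt_min hδ₁ one_pos).le
  calc α ^ 2 * (Am.card : ℝ) ≤ CL * (g * R) ^ (2 / 3 : ℝ) * (min 1 ((Am.card : ℝ) / (g * R ^ 2))) ^ δ₁ * (m₁ + m₂) := key
    _ ≤ |CL| * (g * R) ^ (2 / 3 : ℝ) * (min 1 ((Am.card : ℝ) / (g * R ^ 2))) ^ δ₁ * (m₁ + m₂) := by
        gcongr
        exact le_abs_self CL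
    _ ≤ |CL| * (g * R) ^ (2 / 3 : ℝ) * (min 1 ((A.card : ℝ) / (g * R ^ 2))) ^ (min δ₁ 1) * (m₁ + m₂) := by gcongr
    _ = _ := by ring

/-- large `R` -/
theorem big_R {CL c₁ c₂ δ₁ ν c : ℝ} (hCL : LocEst CL c₁ c₂ δ₁ ν) (hδ₁ : 0 < δ₁) (hc : 0 < c) (hcc : c₁ = 2 * c)
    (hc₁₂ : c₁ < c₂) (hc₂ : c₂ < 1 / 8) {N : ℕ} (hN : 7 / c ≤ N) {CE : ℝ} (hCE : 0 ≤ CE)
    (hE : ∀ (w T R : ℝ) (G : E 2 → ℂ) (A : Finset Ix) (x : Ix → E 2) (t : Ix → ℝ)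
    (n : Ix → ℤ), 0 < w → 1 ≤ T → 1 ≤ R → Str w G → (∀ i ∈ A, 0 ≤ t i) → (∀ i ∈ A, t i ≤ R) →
      (∀ i ∈ A, ∀ j ∈ A, (∀ k, ⌊x i k⌋ = ⌊x j k⌋) → ⌊t i⌋ = ⌊t j⌋ → i = j) →
      (∀ i ∈ A, n i * T ≤ x i 1 ∧ x i 1 < (n i + 1) * T) →
      ∑ i ∈ A, ‖evo G (x i) (t i) 0 - evo (cut w (Wd T (n i)) G) (x i) (t i) 0‖ ^ 2 ≤
        CE * (w * ((1 + w ^ 2 * R) / (w * T)) ^ (N + 2) * T ^ 2) ^ 2 * R * ∫ η, ‖G η‖ ^ 2)
    {R g α a : ℝ} {G₁ G₂ : E 2 → ℂ} {A : Finset Ix} {x : Ix → E 2} {t : Ix → ℝ} (hR : 1 ≤ R) (hbig : 2 ≤ R ^ c)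
    (hg : 1 ≤ g) (hgR : g ≤ R ^ (12 / 25 : ℝ)) (hα : 0 ≤ α) (hG₁ : Str (R ^ (c - 1 / 2)) G₁)
    (hG₂ : Str (R ^ (c - 1 / 2)) G₂) (hs₁ : ∀ η, G₁ η ≠ 0 → η 0 ≤ a) (hs₂ : ∀ η, G₂ η ≠ 0 → a + ν ≤ η 0)
    (hA : Pt g R A x t) (hpt : ∀ i ∈ A, α ≤ ‖evo G₁ (x i) (t i) 0‖ ∧ α ≤ ‖evo G₂ (x i) (t i) 0‖) :
    α ^ 2 * (A.card : ℝ) ≤ 4 * CE * 4 ^ (N + 2) * R ^ (-10 : ℝ) * ((∫ η, ‖G₁ η‖ ^ 2) + ∫ η, ‖G₂ η‖ ^ 2) +
      12 * |CL| * ((g * R) ^ (2 / 3 : ℝ) * (min 1 ((A.card : ℝ) / (g * R ^ 2))) ^ (min δ₁ 1)) *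
        ((∫ η, ‖G₁ η‖ ^ 2) + ∫ η, ‖G₂ η‖ ^ 2) := by
  have hR0 : 0 < R := by linarith
  have hg0 : 0 < g := by linarith
  have hkap := kappa_le hc (by linarith) hc₂ hN hR
  have hT1 : 1 ≤ R ^ (1 / 2 + c₂) := Real.one_le_rpow hR (by linarith)
  have hT0 : 0 < R ^ (1 / 2 + c₂) := by positivity
  have hw0 : 0 < R ^ (c - 1 / 2) := by positivity
  have h2w : 2 * R ^ (c - 1 / 2) ≤ R ^ (c₁ - 1 / 2) := by
    have e : R ^ (c₁ - 1 / 2) = R ^ c * R ^ (c - 1 / 2) := by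
      rw [← Real.rpow_add hR0]
      congr 1; rw [hcc]; ring
    rw [e]
    exact mul_le_mul_of_nonneg_right hbig hw0.le
  have hone := fun (Am : Finset Ix) (m : ℤ) => good_one (Am := Am) (m := m) hCL hδ₁ hR hg hgR (by positivity : 0 ≤ α / 2)
    hw0 h2w hG₁ hG₂ hs₁ hs₂ hA
  generalize hT : R ^ (1 / 2 + c₂) = T at *
  generalize hw : R ^ (c - 1 / 2) = w at *
  have hΓ0 : 0 ≤ (g * R) ^ (2 / 3 : ℝ) * (min 1 ((A.card : ℝ) / (g * R ^ 2))) ^ (min δ₁ 1) := by positivity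
  generalize (g * R) ^ (2 / 3 : ℝ) * (min 1 ((A.card : ℝ) / (g * R ^ 2))) ^ (min δ₁ 1) = Γ at *
  have hM₁ : 0 ≤ ∫ η, ‖G₁ η‖ ^ 2 := integral_nonneg fun η => by positivity
  have hM₂ : 0 ≤ ∫ η, ‖G₂ η‖ ^ 2 := integral_nonneg fun η => by positivity
  have hCL0 := abs_nonneg CL
  let n : Ix → ℤ := fun i => ⌊x i 1 / T⌋
  have hn : ∀ i ∈ A, (n i : ℝ) * T ≤ x i 1 ∧ x i 1 < ((n i : ℝ) + 1) * T := by
    intro i _
    have a1 := Int.floor_le (x i 1 / T)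
    have a2 := Int.lt_floor_add_one (x i 1 / T)
    rw [le_div_iff₀ hT0] at a1
    rw [div_lt_iff₀ hT0] at a2
    exact ⟨a1, a2⟩
  -- errors
  have herr : ∀ G, Str w G → ∑ i ∈ A, ‖evo G (x i) (t i) 0 - evo (cut w (Wd T (n i)) G) (x i) (t i) 0‖ ^ 2 ≤
      CE * 4 ^ (N + 2) * R ^ (-10 : ℝ) * ∫ η, ‖G η‖ ^ 2 := by
    intro G hG
    have hG0 : 0 ≤ ∫ η, ‖G η‖ ^ 2 := integral_nonneg fun η => by positivity
    refine (hE w T R G A x t n hw0 hT1 hR hG hA.t0 hA.tR (fun i hi j hj h1 h2 => hA.cell i hi j hj h1 h2) hn).trans ?_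
    refine mul_le_mul_of_nonneg_right ?_ hG0
    rw [mul_assoc CE, mul_assoc CE]
    exact mul_le_mul_of_nonneg_left hkap hCE
  have e₁ := herr G₁ hG₁
  have e₂ := herr G₂ hG₂
  generalize hD₁ : (fun i => ‖evo G₁ (x i) (t i) 0 - evo (cut w (Wd T (n i)) G₁) (x i) (t i) 0‖) = D₁
  generalize hD₂ : (fun i => ‖evo G₂ (x i) (t i) 0 - evo (cut w (Wd T (n i)) G₂) (x i) (t i) 0‖) = D₂
  have e₁' : ∑ i ∈ A, D₁ i ^ 2 ≤ CE * 4 ^ (N + 2) * R ^ (-10 : ℝ) * ∫ η, ‖G₁ η‖ ^ 2 := by rw [← hD₁]; exact e₁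
  have e₂' : ∑ i ∈ A, D₂ i ^ 2 ≤ CE * 4 ^ (N + 2) * R ^ (-10 : ℝ) * ∫ η, ‖G₂ η‖ ^ 2 := by rw [← hD₂]; exact e₂
  classical
  -- bad points
  set B : Finset Ix := A.filter fun i => α / 2 < D₁ i ∨ α / 2 < D₂ i with hB
  have hBc : α ^ 2 * (B.card : ℝ) ≤ 4 * CE * 4 ^ (N + 2) * R ^ (-10 : ℝ) * ((∫ η, ‖G₁ η‖ ^ 2) + ∫ η, ‖G₂ η‖ ^ 2) := by
    have h1 : (B.card : ℝ) * (α / 2) ^ 2 ≤ ∑ i ∈ B, (D₁ i ^ 2 + D₂ i ^ 2) := by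
      rw [← nsmul_eq_mul]
      refine Finset.card_nsmul_le_sum B _ _ fun i hi => ?_
      rw [hB, Finset.mem_filter] at hi
      have hα2 : 0 ≤ α / 2 := by positivity
      rcases hi.2 with h | h
      · have := pow_le_pow_left₀ hα2 h.le 2
        linarith [sq_nonneg (D₂ i)]
      · have := pow_le_pow_left₀ hα2 h.le 2
        linarith [sq_nonneg (D₁ i)]
    have h2 : ∑ i ∈ B, (D₁ i ^ 2 + D₂ i ^ 2) ≤ ∑ i ∈ A, (D₁ i ^ 2 + D₂ i ^ 2) :=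
      Finset.sum_le_sum_of_subset_of_nonneg (Finset.filter_subset _ _) fun i _ _ => by positivity
    have h5 : ∑ i ∈ A, (D₁ i ^ 2 + D₂ i ^ 2) = ∑ i ∈ A, D₁ i ^ 2 + ∑ i ∈ A, D₂ i ^ 2 := Finset.sum_add_distrib
    linarith
  -- good points, window by window
  have hgood : ∀ m ∈ A.image n, (α / 2) ^ 2 * (((A \ B).filter fun i => n i = m).card : ℝ) ≤
      |CL| * Γ * ((∫ η, ‖cut w (Wd T m) G₁ η‖ ^ 2) + ∫ η, ‖cut w (Wd T m) G₂ η‖ ^ 2) := by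
    intro m _
    have hmem : ∀ i ∈ (A \ B).filter fun i => n i = m, i ∈ A ∧ D₁ i ≤ α / 2 ∧ D₂ i ≤ α / 2 ∧ n i = m := by
      intro i hi
      rw [Finset.mem_filter, Finset.mem_sdiff, hB, Finset.mem_filter, not_and, not_or, not_lt, not_lt] at hi
      exact ⟨hi.1.1, (hi.1.2 hi.1.1).1, (hi.1.2 hi.1.1).2, hi.2⟩
    refine hone _ m ((Finset.filter_subset _ _).trans Finset.sdiff_subset) (fun i hi => ?_) fun i hi => ?_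
    · obtain ⟨hiA, -, -, hnm⟩ := hmem i hi
      have := hn i hiA
      rwa [hnm] at this
    · obtain ⟨hiA, d1, d2, hnm⟩ := hmem i hi
      obtain ⟨p1, p2⟩ := hpt i hiA
      rw [← hD₁] at d1
      rw [← hD₂] at d2
      simp only [hnm] at d1 d2
      have b1 := norm_sub_norm_le (evo G₁ (x i) (t i) 0) (evo (cut w (Wd T m) G₁) (x i) (t i) 0)
      have b2 := norm_sub_norm_le (evo G₂ (x i) (t i) 0) (evo (cut w (Wd T m) G₂) (x i) (t i) 0)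
      constructor <;> linarith
  have hcardG : ((A \ B).card : ℝ) = ∑ m ∈ A.image n, (((A \ B).filter fun i => n i = m).card : ℝ) := by
    exact_mod_cast Finset.card_eq_sum_card_fiberwise (f := n) (s := A \ B) (t := A.image n)
      (fun i hi => Finset.mem_coe.2 (Finset.mem_image_of_mem n (Finset.sdiff_subset hi)))
  have hcardA : (A.card : ℝ) = B.card + (A \ B).card := by
    have h' : (A \ B).card + B.card = A.card := Finset.card_sdiff_add_card_eq_card (Finset.filter_subset _ A)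
    have h'' : ((A \ B).card : ℝ) + B.card = A.card := by exact_mod_cast h'
    linarith
  have hsum : (α / 2) ^ 2 * ((A \ B).card : ℝ) ≤ |CL| * Γ * (3 * ((∫ η, ‖G₁ η‖ ^ 2) + ∫ η, ‖G₂ η‖ ^ 2)) := by
    rw [hcardG, Finset.mul_sum]
    refine (Finset.sum_le_sum hgood).trans ?_
    rw [← Finset.mul_sum, Finset.sum_add_distrib]
    refine mul_le_mul_of_nonneg_left ?_ (by positivity)
    have m1 := mass_sum hw0 hT0 hG₁ (A.image n)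
    have m2 := mass_sum hw0 hT0 hG₂ (A.image n)
    linarith
  rw [hcardA]
  linarith

/-- **[YLOC]** -/
theorem yloc : StYLOC := by
  rintro ⟨c₁, c₂, δ₁, hc₁, hc₁₂, hc₂, hδ₁, hL⟩
  have hc : 0 < c₁ / 2 := by positivity
  have hc8 : c₁ / 2 < 1 / 2 := by linarith
  refine ⟨c₁ / 2, min δ₁ 1, hc, lt_min hδ₁ one_pos, fun ν hν => ?_⟩
  obtain ⟨CL, hCL⟩ := hL ν hν
  obtain ⟨N, hN⟩ := exists_nat_ge (7 / (c₁ / 2))
  obtain ⟨CE, hCE, hE⟩ := err_sum N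
  obtain ⟨CS, hCS, hS⟩ := small_R hc hc8
  have hδ : 0 < min δ₁ 1 := lt_min hδ₁ one_pos
  have hδ1 : min δ₁ 1 ≤ 1 := min_le_right _ _
  refine ⟨CS + 4 * CE * 4 ^ (N + 2) + 12 * |CL|, ?_⟩
  intro R g α a G₁ G₂ A x t hR hg hgR hα hG₁ hG₂ hs₁ hs₂ hA hpt
  have hR0 : 0 < R := by linarith
  have hg0 : 0 < g := by linarith
  have hM₁ : 0 ≤ ∫ η, ‖G₁ η‖ ^ 2 := integral_nonneg fun η => by positivity
  have hM₂ : 0 ≤ ∫ η, ‖G₂ η‖ ^ 2 := integral_nonneg fun η => by positivity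
  rcases Nat.eq_zero_or_pos A.card with h0 | hk
  · rw [h0]
    simp only [Nat.cast_zero, mul_zero, zero_div]
    positivity
  have hΓ3 : R ^ (-3 : ℝ) ≤ (g * R) ^ (2 / 3 : ℝ) * (min 1 ((A.card : ℝ) / (g * R ^ 2))) ^ (min δ₁ 1) :=
    gain_low hR hg hgR hδ hδ1 hk
  have h10 : R ^ (-10 : ℝ) ≤ (g * R) ^ (2 / 3 : ℝ) * (min 1 ((A.card : ℝ) / (g * R ^ 2))) ^ (min δ₁ 1) :=
    (Real.rpow_le_rpow_of_exponent_le hR (by norm_num)).trans hΓ3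
  have hCL0 := abs_nonneg CL
  have hsm : R ^ (c₁ / 2) < 2 → α ^ 2 * (A.card : ℝ) ≤ CS * ((g * R) ^ (2 / 3 : ℝ) *
      (min 1 ((A.card : ℝ) / (g * R ^ 2))) ^ (min δ₁ 1)) * ∫ η, ‖G₁ η‖ ^ 2 := fun h => by
    have h1 := hS R g α (min δ₁ 1) G₁ A x t hR h hg hgR hδ hδ1 hα hG₁ hA (fun i hi => (hpt i hi).1) hk
    rwa [mul_assoc CS] at h1
  have hbg := fun h : 2 ≤ R ^ (c₁ / 2) => big_R (c := c₁ / 2) hCL hδ₁ hc (by ring) hc₁₂ hc₂ hN hCE hE hR h hg hgR hα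
    hG₁ hG₂ hs₁ hs₂ hA hpt
  rw [mul_assoc (CS + 4 * CE * 4 ^ (N + 2) + 12 * |CL|)]
  generalize (g * R) ^ (2 / 3 : ℝ) * (min 1 ((A.card : ℝ) / (g * R ^ 2))) ^ (min δ₁ 1) = Γ at *
  have hΓ0 : 0 ≤ Γ := (by positivity : 0 ≤ R ^ (-3 : ℝ)).trans hΓ3
  generalize (∫ η, ‖G₁ η‖ ^ 2) = M₁ at *
  generalize (∫ η, ‖G₂ η‖ ^ 2) = M₂ at *
  have hE0 : 0 ≤ 4 * CE * 4 ^ (N + 2) := by positivity
  have a1 : 0 ≤ Γ * (M₁ + M₂) := by positivity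
  rcases lt_or_ge (R ^ (c₁ / 2)) 2 with h | h
  · have h1 := hsm h
    have a2 : CS * Γ * M₁ ≤ CS * Γ * (M₁ + M₂) := mul_le_mul_of_nonneg_left (by linarith) (by positivity)
    nlinarith
  · have h1 := hbg h
    have a2 : 4 * CE * 4 ^ (N + 2) * R ^ (-10 : ℝ) * (M₁ + M₂) ≤ 4 * CE * 4 ^ (N + 2) * Γ * (M₁ + M₂) := by gcongr
    nlinarith

end Vale.Agent.P076.H551
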